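import Vale.Agent.P179.H554.Psi6
import Vale.Agent.P179.Allb.DefsR

/-!
# Module PSI of ALLB, part 7: the theorem
-/

namespace Vale.P179.H554

open Matrix Module Vale.P179.Allb

section cut

variable {k D Λ Λ₁ J T Λ' Λ₂ : Type} [Field k] [CommGroup D] [Finite D] [Ring Λ] [Algebra k Λ]
    [Ring Λ₁] [Algebra k Λ₁] {τ : MulAut D} {e : ℕ} {A : AX k D Λ τ e} {Q : Subgroup D}
    {A₁ : AX k (D ⧸ Q) Λ₁ 1 1} {π : A.CA Q →ₐ[k] Λ₁} [Fintype J] [DecidableEq J] [Fintype T]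
    {d : ℕ} {φ : Λ₁ →ₐ[k] Matrix (Fin d) (Fin d) k} {r : D →* Matrix J J k}
    {w : WD k D (Fin d × J) τ e} {B : PX k D (Matrix (Fin d × J) (Fin d × J) Λ)}
    {θ : Basis (Option T) k (Matrix J J k)} {p : ℕ} [Fact p.Prime] [CharP k p]
    [Ring Λ'] [Algebra k Λ'] {v : Λ' →ₗ[k] Matrix (Fin d × J) (Fin d × J) Λ}
    {A' : AX k D Λ' τ e} {j : Matrix (Fin d × J) (Fin d × J) Λ}
    [Ring Λ₂] [Algebra k Λ₂] {A₂ : AX k (D ⧸ Q) Λ₂ 1 1} {π₂ : A'.CA Q →ₐ[k] Λ₂}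

/-- the form of the new local quotient -/
theorem t₂_eq (hQ : IsPGroup p Q) (h : PF (r.comp Q.subtype) θ)
    (hJ : (Fintype.card J : k) ≠ 0) (hb : Bar A Q A₁ π)
    (hw : ∀ x a b, w.r x a b = (φ (A₁.u (QuotientGroup.mk x⁻¹))) b.1 a.1 * r x a.2 b.2)
    (hB : MatX A w B) (hju : ∀ x, B.u x * j = j * B.u x) (hv : Cor j v)
    (hvu : ∀ x, v (A'.u x) = B.u x * j) (hvt : ∀ a, A'.t a = B.t (v a)) (hb₂ : Bar A' Q A₂ π₂)
    (a : A'.CA Q) :
    A₂.t (π₂ a) = (Fintype.card J : k) *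
      tr1 A₁.t (FM hQ h hJ hb hw hB ⟨v a, (v_mem_iff hju hv hvu (a : Λ')).2 a.2⟩) := by
  rw [hb₂.map_t]
  refine Eq.trans ?_ (FM_trace hQ h hJ hb hw hB ⟨v a, (v_mem_iff hju hv hvu (a : Λ')).2 a.2⟩)
  refine finsum_congr fun q => ?_
  rw [hvt, v_u hju hv hvu]

/-- the kernels agree -/
theorem ker_iff (hQ : IsPGroup p Q) (h : PF (r.comp Q.subtype) θ)
    (hJ : (Fintype.card J : k) ≠ 0) (hb : Bar A Q A₁ π)
    (hw : ∀ x a b, w.r x a b = (φ (A₁.u (QuotientGroup.mk x⁻¹))) b.1 a.1 * r x a.2 b.2)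
    (hB : MatX A w B) (hjj : j * j = j) (hju : ∀ x, B.u x * j = j * B.u x) (hv : Cor j v)
    (hvu : ∀ x, v (A'.u x) = B.u x * j) (hvt : ∀ a, A'.t a = B.t (v a)) (hb₂ : Bar A' Q A₂ π₂)
    (a : A'.CA Q) :
    π₂ a = 0 ↔ FM hQ h hJ hb hw hB ⟨v a, (v_mem_iff hju hv hvu (a : Λ')).2 a.2⟩ = 0 := by
  have hjm : j ∈ B.CA Q := mem_CA'.2 fun x _ => hju x
  have hmul : ∀ a c : A'.CA Q,
      FM hQ h hJ hb hw hB ⟨v (a * c : A'.CA Q), (v_mem_iff hju hv hvu _).2 (a * c).2⟩ =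
      FM hQ h hJ hb hw hB ⟨v a, (v_mem_iff hju hv hvu _).2 a.2⟩ *
      FM hQ h hJ hb hw hB ⟨v c, (v_mem_iff hju hv hvu _).2 c.2⟩ := by
    intro a c
    rw [← map_mul]
    congr 1
    exact Subtype.ext (hv.mul _ _)
  constructor
  · intro h0
    refine tr1_nd A₁.nd fun Y => ?_
    obtain ⟨Z, rfl⟩ := FM_surjective hQ h hJ hb hw hB Y
    -- the element of the corner
    obtain ⟨c, hc⟩ := hv.rng (j * Z.1 * j) (by
      have h1 : j * (j * Z.1 * j) * j = j * j * Z.1 * (j * j) := by simp only [mul_assoc]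
      rw [h1, hjj])
    have hcm : c ∈ A'.CA Q := by
      rw [← v_mem_iff hju hv hvu, hc]
      exact mul_mem (mul_mem hjm Z.2) hjm
    have h2 := t₂_eq hQ h hJ hb hw hB hju hv hvu hvt hb₂ (a * ⟨c, hcm⟩)
    rw [map_mul, h0, zero_mul, map_zero, hmul] at h2
    have h3 := (mul_eq_zero.1 h2.symm).resolve_left hJ
    have h4 : FM hQ h hJ hb hw hB ⟨v c, (v_mem_iff hju hv hvu _).2 hcm⟩ =
        FM hQ h hJ hb hw hB ⟨j, hjm⟩ * (FM hQ h hJ hb hw hB Z * FM hQ h hJ hb hw hB ⟨j, hjm⟩) := by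
      rw [← map_mul, ← map_mul]
      congr 1
      apply Subtype.ext
      change v c = j * (Z.1 * j)
      rw [hc, mul_assoc]
    have h5 : FM hQ h hJ hb hw hB ⟨v a, (v_mem_iff hju hv hvu (a : Λ')).2 a.2⟩ =
        FM hQ h hJ hb hw hB ⟨v a, (v_mem_iff hju hv hvu (a : Λ')).2 a.2⟩ *
          FM hQ h hJ hb hw hB ⟨j, hjm⟩ := by
      rw [← map_mul]
      congr 1
      apply Subtype.ext
      change v a = v a * j
      rw [v_j hv]
    have h6 : FM hQ h hJ hb hw hB ⟨v a, (v_mem_iff hju hv hvu (a : Λ')).2 a.2⟩ =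
        FM hQ h hJ hb hw hB ⟨j, hjm⟩ *
          FM hQ h hJ hb hw hB ⟨v a, (v_mem_iff hju hv hvu (a : Λ')).2 a.2⟩ := by
      rw [← map_mul]
      congr 1
      apply Subtype.ext
      change v a = j * v a
      rw [j_v hv]
    change tr1 A₁.t (FM hQ h hJ hb hw hB ⟨v a, (v_mem_iff hju hv hvu (a : Λ')).2 a.2⟩ *
      FM hQ h hJ hb hw hB ⟨v c, (v_mem_iff hju hv hvu _).2 hcm⟩) = 0 at h3
    rw [h4, ← mul_assoc, ← h5, ← mul_assoc, tr1_comm A₁.tc, ← mul_assoc, ← h6] at h3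
    exact h3
  · intro h0
    refine A₂.nd _ fun y => ?_
    obtain ⟨c, rfl⟩ := hb₂.surj y
    rw [← map_mul, t₂_eq hQ h hJ hb hw hB hju hv hvu hvt hb₂, hmul, h0, zero_mul]
    simp [tr1]

end cut

/-- **Module PSI.** -/
theorem psir : Vale.P179.Allb.PSIR := by
  intro p _ k _ _ _ D _ _ τ e _ htw Λ Λ₁ _ _ _ _ A Q hQ1 A₁ π hb d φ hφs hφn J _ _ r w hw hOF hJ
    B hB Λ' _ _ v A' j hjj hju hv hvu hvt Λ₂ _ _ A₂ π₂ hb₂
  obtain ⟨T, _, θ, hθ1, hθ2, hθ3⟩ := hOF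
  have hD : IsPGroup p D := htw.pgr
  have hQ : IsPGroup p Q := hD.to_subgroup Q
  have h : PF (r.comp Q.subtype) θ := ⟨hθ1, fun x i => hθ2 x x.2 i, fun i => by
    obtain ⟨x, hx, hx'⟩ := hθ3 i
    exact ⟨⟨x, hx⟩, hx'⟩⟩
  have hjm : j ∈ B.CA Q := mem_CA'.2 fun x _ => hju x
  set F := FM hQ h hJ hb hw hB with hF
  set Ψ := Ps hQ h hJ hb hw hB with hΨ
  have hvm : ∀ a : A'.CA Q, v a ∈ B.CA Q := fun a => (v_mem_iff hju hv hvu (a : Λ')).2 a.2
  -- the idempotent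
  set ε := Ψ ⟨j, hjm⟩ with hε
  have hεε : ε * ε = ε := by
    rw [hε, ← map_mul]
    congr 1
    exact Subtype.ext hjj
  have hεε' : ∀ X, ε (ε X) = ε X := fun X => congrFun (congrArg DFunLike.coe hεε) X
  have hεv : ∀ a : A'.CA Q, ε * Ψ ⟨v a, hvm a⟩ = Ψ ⟨v a, hvm a⟩ := by
    intro a
    rw [hε, ← map_mul]
    congr 1
    exact Subtype.ext (j_v hv _)
  have hvε : ∀ a : A'.CA Q, Ψ ⟨v a, hvm a⟩ * ε = Ψ ⟨v a, hvm a⟩ := by
    intro a
    rw [hε, ← map_mul]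
    congr 1
    exact Subtype.ext (v_j hv _)
  -- nonzero
  have hF0 : F ⟨j, hjm⟩ ≠ 0 := by
    intro h0
    have h1 : π₂ 1 = 0 := by
      rw [ker_iff hQ h hJ hb hw hB hjj hju hv hvu hvt hb₂]
      refine Eq.trans ?_ h0
      rw [hF]
      congr 1
      exact Subtype.ext hv.one
    rw [map_one] at h1
    have h2 : A₂.cnt ⊤ ≠ 0 := by
      rw [A₂.rank]
      exact Nat.card_pos.ne'
    have h3 : Nonempty A₂.I := by
      by_contra hne
      apply h2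
      unfold PX.cnt
      have : IsEmpty A₂.I := not_nonempty_iff.1 hne
      exact Nat.card_of_isEmpty
    obtain ⟨i⟩ := h3
    apply A₂.b.ne_zero i
    rw [← one_mul (A₂.b i), h1, zero_mul]
  have hfin : IsArtinianRing Λ₁ := by
    have : Fintype A₁.I := A₁.fin
    have : FiniteDimensional k Λ₁ := A₁.b.finiteDimensional_of_finite
    exact IsArtinianRing.of_finite k Λ₁
  have hε0 : ε ≠ 0 := by
    intro h0
    apply hF0
    have h1 : φ.mapMatrix (F ⟨j, hjm⟩) = 0 := by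
      apply actM_injective
      rw [map_zero]
      exact h0
    refine idem_eq_zero (RingHom.ker φ) (fun x hx => hφn x hx) ?_ fun a b => ?_
    · rw [← map_mul]
      congr 1
      exact Subtype.ext hjj
    · exact congrFun (congrFun h1 a) b
  -- the module
  let V : Submodule k (Matrix (Fin d) (Fin d) k) := LinearMap.range ε
  have hVε : ∀ x : V, ε x = x := by
    rintro ⟨_, X, rfl⟩
    exact hεε' X
  have hst : ∀ a : A'.CA Q, ∀ x ∈ V, Ψ ⟨v a, hvm a⟩ x ∈ V := by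
    intro a x _
    exact ⟨Ψ ⟨v a, hvm a⟩ x, congrFun (congrArg DFunLike.coe (hεv a)) x⟩
  let ψ : A'.CA Q →ₐ[k] Module.End k V := AlgHom.ofLinearMap
    { toFun := fun a => (Ψ ⟨v a, hvm a⟩).restrict (hst a)
      map_add' := fun a b => by
        ext x : 2
        change Ψ ⟨v (a + b : A'.CA Q), _⟩ x = Ψ ⟨v a, _⟩ x + Ψ ⟨v b, _⟩ x
        rw [← LinearMap.add_apply, ← map_add]
        congr 2
        exact Subtype.ext (map_add v _ _)
      map_smul' := fun c a => by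
        ext x : 2
        change Ψ ⟨v (c • a : A'.CA Q), _⟩ x = c • Ψ ⟨v a, _⟩ x
        rw [← LinearMap.smul_apply, ← map_smul]
        congr 2
        exact Subtype.ext (map_smul v _ _) }
    (by
      ext x : 2
      change Ψ ⟨v (1 : A'.CA Q), _⟩ x = x
      have h1 : Ψ ⟨v (1 : A'.CA Q), hvm 1⟩ = ε := by
        rw [hε]
        congr 1
        exact Subtype.ext hv.one
      exact (congrFun (congrArg DFunLike.coe h1) x.1).trans (hVε x))
    (fun a b => by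
      ext x : 2
      change Ψ ⟨v (a * b : A'.CA Q), _⟩ x = Ψ ⟨v a, _⟩ (Ψ ⟨v b, _⟩ x)
      rw [← Module.End.mul_apply, ← map_mul]
      congr 2
      exact Subtype.ext (hv.mul _ _))
  have hψ : ∀ (a : A'.CA Q) (x : V), (ψ a x : Matrix (Fin d) (Fin d) k) = Ψ ⟨v a, hvm a⟩ x :=
    fun a x => rfl
  obtain ⟨φ₂, hφ₂⟩ := exists_lift (C := Module.End k V) π₂ hb₂.surj ψ (fun a ha => by
    rw [ker_iff hQ h hJ hb hw hB hjj hju hv hvu hvt hb₂] at ha
    ext x : 2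
    rw [hψ]
    have h1 : Ψ ⟨v a, hvm a⟩ = 0 := by
      rw [hΨ]
      change actM (φ.mapMatrix (FM hQ h hJ hb hw hB ⟨v a, hvm a⟩)) = 0
      rw [ha, map_zero, map_zero]
    rw [h1]
    rfl)
  have hΨs : Function.Surjective Ψ := Ps_surjective hφs hQ h hJ hb hw hB
  have hnt : Nontrivial V := by
    obtain ⟨X, hX⟩ : ∃ X, ε X ≠ 0 := by
      by_contra hne
      push Not at hne
      exact hε0 (LinearMap.ext hne)
    exact ⟨⟨⟨ε X, X, rfl⟩, 0, fun h => hX (congrArg Subtype.val h)⟩⟩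
  have hu : ∀ (x : D) (y : V), (φ₂ (A₂.u (QuotientGroup.mk x)) y : Matrix (Fin d) (Fin d) k) =
      φ (A₁.u (QuotientGroup.mk x)) * y * φ (A₁.u (QuotientGroup.mk x⁻¹)) := by
    intro x y
    rw [← hb₂.map_u x (u_mem A'.toPX x), hφ₂, hψ]
    have h1 : Ψ ⟨v (A'.u x), (v_mem_iff hju hv hvu _).2 (u_mem A'.toPX x)⟩ =
        Ψ ⟨B.u x, u_mem B x⟩ * ε := by
      rw [hε, ← map_mul]
      congr 1
      exact Subtype.ext (hvu x)
    rw [h1, Module.End.mul_apply, hVε, hΨ, Ps_u hD hQ h hJ hb hw hB]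
  refine ⟨V, inferInstance, inferInstance, inferInstance, hnt, φ₂, V.subtype,
    ε.codRestrict V (fun X => ⟨X, rfl⟩), ?_, ?_, ?_, ?_⟩
  · -- surjectivity
    intro y
    let y' : Module.End k (Matrix (Fin d) (Fin d) k) :=
      V.subtype ∘ₗ y ∘ₗ ε.codRestrict V (fun X => ⟨X, rfl⟩)
    obtain ⟨Z, hZ⟩ := hΨs y'
    obtain ⟨c, hc⟩ := hv.rng (j * Z.1 * j) (by
      have h1 : j * (j * Z.1 * j) * j = j * j * Z.1 * (j * j) := by simp only [mul_assoc]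
      rw [h1, hjj])
    have hcm : c ∈ A'.CA Q := by
      rw [← v_mem_iff hju hv hvu, hc]
      exact mul_mem (mul_mem hjm Z.2) hjm
    refine ⟨π₂ ⟨c, hcm⟩, ?_⟩
    ext x : 2
    rw [hφ₂, hψ]
    have h4 : Ψ ⟨v c, (v_mem_iff hju hv hvu _).2 hcm⟩ = ε * (y' * ε) := by
      rw [hε, ← hZ, ← map_mul, ← map_mul]
      congr 1
      apply Subtype.ext
      change v c = j * (Z.1 * j)
      rw [hc, mul_assoc]
    rw [h4, Module.End.mul_apply, Module.End.mul_apply, hVε]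
    change ε (y ⟨ε x, _⟩ : V) = y x
    rw [hVε]
    congr 2
    exact Subtype.ext (hVε x)
  · intro y
    exact Subtype.ext (hVε y)
  · intro x y
    obtain ⟨x, rfl⟩ := QuotientGroup.mk_surjective x
    exact hu x y
  · intro x M
    obtain ⟨x, rfl⟩ := QuotientGroup.mk_surjective x
    apply Subtype.ext
    rw [hu]
    change ε _ = φ (A₁.u (QuotientGroup.mk x)) * ε M * φ (A₁.u (QuotientGroup.mk x⁻¹))
    have h1 : ε * Ψ ⟨B.u x, u_mem B x⟩ = Ψ ⟨B.u x, u_mem B x⟩ * ε := by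
      rw [hε, ← map_mul, ← map_mul]
      congr 1
      exact Subtype.ext (hju x).symm
    have h2 := congrFun (congrArg DFunLike.coe h1) M
    rw [Module.End.mul_apply, Module.End.mul_apply, hΨ, Ps_u hD hQ h hJ hb hw hB,
      Ps_u hD hQ h hJ hb hw hB] at h2
    exact h2

/-- PSI from PSIR -/
theorem psi : Vale.P179.Allb.PSI := by
  intro p _ k _ _ _ D _ _ τ e _ htw Λ Λ₁ _ _ _ _ A Q hQ1
  exact psir p k D τ e htw.toTW0 Λ Λ₁ A Q (htw.fr hQ1)

end Vale.P179.H554
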