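import Vale.Agent.P179.H554.Core1
import Vale.Agent.P179.H815.Num4
import Vale.Agent.P179.H300.EP8

/-!
# Module CORE of the SIGNATURE project, part 2: assembly
-/

namespace Vale.P179.H554

open Matrix Module Vale.P179.H175 Vale.P179.H904 Vale.P179.H445 Vale.P179.H815 Vale.P179.Sgn

/-- Module CORE. -/
theorem core : Vale.P179.Sgn.CORE := by
  intro K A B Γ _ _ _ _ _ _ _ _ _ D e M c _ H W J n E hB hι hZ
  obtain ⟨ν, i, r, x, hfam, hEP2⟩ :=
    H300.ep2 D.rel D.span H.basic hB.gr hι E hB.deg hB.idem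
  obtain ⟨Wm, hEP3⟩ := H300.ep3 D.rel D.span H.basic hB.gr hι
  obtain ⟨z, hA3⟩ := a3 D H hB hι hfam
  exact core_of D H hB hι hZ (um := Matrix.of fun b m => H300.mult (i m) (r m) b)
    (fun a m => hEP2 a m) hEP3 hA3

end Vale.P179.H554
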