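import Vale.Agent.P179.Rel.Defs
import Vale.Agent.P179.H737.RCore
import Vale.Agent.P179.H815.Num4

/-!
# REL, module A3R, piece P5: `ct u * y` as the graded dimension of the coinduced simple modules
-/

namespace Vale.P179.H554

open Matrix Module Vale.P179.H175 Vale.P179.H904 Vale.P179.H815 Vale.P179.H445 Vale.P179.H300
open P179H342 Vale.P179.Sgn

/-- `B E` is a graded projective left `A`-module. -/
theorem retr_projl {K A B Γ : Type} [Field K] [Ring A] [Algebra K A] [Ring B] [Algebra K B]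
    [Group Γ] [Fintype Γ] {γ : Γ →* A} {ι : A →ₐ[K] B} {W : ℚ → Submodule K B}
    (hproj : ∃ η : B →ₗ[K] B, ∀ v, ∑ g : Γ, ι (γ g) * η (ι (γ g⁻¹) * v) = v)
    (hB : H175.GrAlg W) {E : B} (hE0 : E ∈ W 0) (hE : E * E = E) :
    Retr γ ι W (LinearMap.mulRight K E) := by
  obtain ⟨η, hη⟩ := hproj
  refine ⟨fun a b => ?_, fun b => ?_, fun r b hb => ?_, 0, 0, LinearMap.mulRight K E ∘ₗ η,
    fun a b => ?_, ?_, fun b hb => ?_⟩
  · simp only [LinearMap.mulRight_apply, mul_assoc]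
  · simp only [LinearMap.mulRight_apply, mul_assoc, hE]
  · have := hB.mul hb hE0
    rwa [add_zero] at this
  · simp
  · simp
  · have hb' : b * E = b := hb
    have h8 : ∑ x : Γ, ι (γ x) * (LinearMap.mulRight K E ∘ₗ η) (ι (γ x⁻¹) * b) = b * E := by
      conv_rhs => rw [← hη b, Finset.sum_mul]
      refine Finset.sum_congr rfl fun x _ => ?_
      rw [LinearMap.comp_apply, LinearMap.mulRight_apply, mul_assoc]
    rw [mul_zero, zero_add, h8, hb']

/-- **P5**: the entries of `ct u * y`. -/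
theorem ct_u_mul {K A B A1 Γ : Type} [Field K] [Ring A] [Algebra K A] [FiniteDimensional K A]
    [Ring B] [Algebra K B] [FiniteDimensional K B] [Ring A1] [Algebra K A1]
    [Group Γ] [Fintype Γ] {D1 D2 : Subgroup Γ} {t : Γ} [Fintype ↥(D1 ⊔ Subgroup.zpowers t)]
    {e M c : ℕ} [NeZero e] (X : Rel.RAll K A B A1 Γ D1 D2 t e M c)
    {W : ℚ → Submodule K B} {J : Submodule K B} {n : ℕ} {E : Fin n → B} (hB : Basic W J E)
    (hι : ∀ r : ℚ, ∀ h ∈ X.H.W r, X.D.ι h ∈ W r)
    (u : Matrix (ZMod e) (Fin n) H737.R.RQ)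
    (hu : ∀ a m, H737.R.emb (gd W (cor2 K (X.D.ι (X.H.ε a)) (E m))) =
      ∑ b, H737.R.CHr M c X.H.P a b * u b m) (m j : Fin n) :
    (H737.R.ct u * H737.R.embM (ymat W J E (fun a => X.D.ι (X.H.ε a)))) m j =
      H737.R.emb (gd (Co.VC X.D.ι W (QMV hB.mulL (E j) W))
        (cor1 K (Co.Coind X.D.ι (B ⧸ QM J hB.mulL (E j))) (E m))) := by
  classical
  obtain ⟨q, hq, hM⟩ := X.H.hM
  -- the families
  choose ν i r x f1 f2 f3 f4 f5 f6 f7 using fun m => fam_retract X.D.ι X.D.span X.H.basic hB.gr hι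
    (retr_projl X.D.projl hB.gr (hB.deg m) (hB.idem m))
  have hfam : ∀ m, LFam X.D.ι W X.H.ε (E m) (i m) (r m) (x m) := fun m =>
    ⟨f1 m, f2 m, f3 m, f4 m, f5 m⟩
  let uz : Matrix (ZMod e) (Fin n) ZQ := Matrix.of fun b m => mult (i m) (r m) b
  have hdet : (H737.R.CHr M c X.H.P).det ≠ 0 := H737.R.det_CHr_ne hM c X.H.hP
  have huz : u = H737.R.embM uz := by
    apply H737.R.left_cancel hdet
    refine Matrix.ext fun a m => ?_
    rw [Matrix.mul_apply, Matrix.mul_apply, ← hu a m]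
    have h1 : gd W (cor2 K (X.D.ι (X.H.ε a)) (E m)) =
        ∑ b, gd X.H.W (cor2 K (X.H.ε a) (X.H.ε b)) * uz b m := by
      have h2 := f6 m (X.H.ε a) (X.H.basic.deg a) (X.H.basic.idem a)
      rw [sum_mult (i m) (r m) (fun b => gd X.H.W (cor2 K (X.H.ε a) (X.H.ε b)))] at h2
      exact h2
    rw [h1, map_sum]
    refine Finset.sum_congr rfl fun b _ => ?_
    rw [map_mul, X.H.dim, H737.R.CHr_apply]
    rfl
  have h1 : (ct uz * ymat W J E (fun a => X.D.ι (X.H.ε a))) m j =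
      gd (Co.VC X.D.ι W (QMV hB.mulL (E j) W))
        (cor1 K (Co.Coind X.D.ι (B ⧸ QM J hB.mulL (E j))) (E m)) := by
    have hfd : ∀ j, FiniteDimensional K (B ⧸ QM J hB.mulL (E j)) := fun j =>
      Module.Finite.of_surjective (mkK hB.mulL (E j)) (mkK_surjective hB.mulL (E j))
    have hV : ∀ j, GrMod W (QMV hB.mulL (E j) W) := fun j =>
      grMod_QM hB.mulL (E j) hB.gr hB.hom (hB.deg j)
    have hf : Co.HFam X.D.ι W (E m) (x m) (r m) (fun k => X.H.ε (i m k)) :=
      { xe := (hfam m).right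
        ax := (hfam m).left
        deg := (hfam m).mem
        span := fun b hb => by
          obtain ⟨c, h1, h2⟩ := (hfam m).span b hb
          exact ⟨c, h1, h2.symm⟩
        inj := (hfam m).inj }
    rw [ct_mul_fam (u := uz) m (a := i m) (r := r m) (fun b => rfl),
      Co.gd_cor1_coind hB.gr (hV j) X.H.basic.gr hι (hB.deg m) (hB.idem m)
        (fun k => X.H.basic.deg _) (fun k => X.H.basic.idem _) hf]
    refine Finset.sum_congr rfl fun k _ => ?_
    rw [gd_QM hB.mulL (E j) hB.gr hB.hom (hB.deg j) (hB.idem j)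
      (hι 0 _ (X.H.basic.deg (i m k))) (by rw [← map_mul, X.H.basic.idem])]
    rfl
  rw [← h1, huz, ← H737.R.embM_ct, ← H737.R.embM_mul]
  rfl

end Vale.P179.H554
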