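import Vale.Agent.P179.H904.Asm
import Vale.Agent.P179.H445.TwistQ

/-!
# Module KLEV of the SIGNATURE project, part 1: the graded algebra `H`

From an `ℕ`-grading to a `ℚ`-grading, the graded Cartan matrix of `H`, the value of the form on
the norm element.
-/

namespace Vale.P179.H554

open Vale.P179.H175 Vale.P179.H904 Vale.P179.H445

section NtoQ

variable {K X : Type*} [Field K] [AddCommGroup X] [Module K X]

/-- the `ℚ`-indexed family attached to an `ℕ`-indexed family -/
def toQ (W : ℕ → Submodule K X) (r : ℚ) : Submodule K X :=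
  ⨆ (w : ℕ) (_ : (w : ℚ) = r), W w

theorem toQ_nat (W : ℕ → Submodule K X) (w : ℕ) : toQ W (w : ℚ) = W w := by
  refine le_antisymm (iSup_le fun v => iSup_le fun hv => ?_) (le_iSup_of_le w (le_iSup_of_le rfl le_rfl))
  have : v = w := by exact_mod_cast hv
  rw [this]

theorem toQ_eq_bot (W : ℕ → Submodule K X) {r : ℚ} (h : ∀ w : ℕ, (w : ℚ) ≠ r) :
    toQ W r = ⊥ := by
  refine le_antisymm (iSup_le fun v => iSup_le fun hv => absurd hv (h v)) bot_le

theorem toQ_cases (r : ℚ) : (∃ w : ℕ, (w : ℚ) = r) ∨ ∀ w : ℕ, (w : ℚ) ≠ r := by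
  by_cases h : ∃ w : ℕ, (w : ℚ) = r
  · exact Or.inl h
  · exact Or.inr fun w hw => h ⟨w, hw⟩

theorem toQ_int {W : ℕ → Submodule K X} (h : DirectSum.IsInternal W) :
    DirectSum.IsInternal (toQ W) := by
  rw [DirectSum.isInternal_submodule_iff_iSupIndep_and_iSup_eq_top] at h ⊢
  obtain ⟨hi, ht⟩ := h
  refine ⟨?_, ?_⟩
  · intro r
    rcases toQ_cases r with ⟨w, rfl⟩ | hr
    · rw [toQ_nat]
      refine (hi w).mono_right ?_
      refine iSup_le fun s => iSup_le fun hs => iSup_le fun v => iSup_le fun hv => ?_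
      refine le_iSup_of_le v (le_iSup_of_le ?_ le_rfl)
      rintro rfl
      exact hs hv.symm
    · rw [toQ_eq_bot W hr]
      exact disjoint_bot_left
  · rw [eq_top_iff, ← ht]
    refine iSup_le fun w => le_iSup_of_le (w : ℚ) ?_
    rw [toQ_nat]

/-- the graded dimension for the `ℚ`-indexed family of an `ℕ`-grading bounded by `N` -/
theorem gd_toQ {W : ℕ → Submodule K X} {N : ℕ} (hN : ∀ w, N ≤ w → W w = ⊥)
    (U : Submodule K X) :
    gd (toQ W) U = ∑ w ∈ Finset.range N,
      AddMonoidAlgebra.single ((w : ℕ) : ℚ) (Module.finrank K ↥(U ⊓ W w) : ℤ) := by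
  classical
  rw [gd_eq_sum (toQ W) U ((Finset.range N).image fun w : ℕ => (w : ℚ)) ?_,
    Finset.sum_image (fun a _ b _ h => by simpa using h)]
  · refine Finset.sum_congr rfl fun w _ => ?_
    rw [toQ_nat]
  · intro r hr
    refine finrank_inf_eq_zero _ ?_
    rcases toQ_cases r with ⟨w, rfl⟩ | h
    · rw [toQ_nat]
      refine hN w ?_
      by_contra hw
      exact hr (Finset.mem_image.2 ⟨w, Finset.mem_range.2 (by omega), rfl⟩)
    · exact toQ_eq_bot W h

end NtoQ

section alg

variable {K H : Type*} [Field K] [Ring H] [Algebra K H]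

theorem toQ_mul {W : ℕ → Submodule K H}
    (mul : ∀ {r s : ℕ} {x y : H}, x ∈ W r → y ∈ W s → x * y ∈ W (r + s)) {r s : ℚ} {x y : H}
    (hx : x ∈ toQ W r) (hy : y ∈ toQ W s) : x * y ∈ toQ W (r + s) := by
  rcases toQ_cases r with ⟨w, rfl⟩ | hr
  · rcases toQ_cases s with ⟨v, rfl⟩ | hs
    · rw [toQ_nat] at hx hy
      rw [← Nat.cast_add, toQ_nat]
      exact mul hx hy
    · rw [toQ_eq_bot W hs, Submodule.mem_bot] at hy
      rw [hy, mul_zero]
      exact Submodule.zero_mem _
  · rw [toQ_eq_bot W hr, Submodule.mem_bot] at hx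
    rw [hx, zero_mul]
    exact Submodule.zero_mem _

theorem toQ_grAlg {W : ℕ → Submodule K H} (int : DirectSum.IsInternal W) (one : (1 : H) ∈ W 0)
    (mul : ∀ {r s : ℕ} {x y : H}, x ∈ W r → y ∈ W s → x * y ∈ W (r + s)) : GrAlg (toQ W) where
  int := toQ_int int
  one := by
    have := toQ_nat W 0
    rw [Nat.cast_zero] at this
    rw [this]
    exact one
  mul := toQ_mul mul

/-- the graded Cartan matrix of `H` -/
theorem gd_eq_CHz {W : ℕ → Submodule K H} {e N c : ℕ} {eps : ZMod e → H}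
    (hN : ∀ w, N ≤ w → W w = ⊥)
    (hdim : ∀ w, w < N → ∀ a b, Module.finrank K ↥(cor2 K (eps a) (eps b) ⊓ W w)
      = (if (w : ZMod e) = b - a then 1 else 0) + c) (a b : ZMod e) :
    gd (toQ W) (cor2 K (eps a) (eps b)) = CHz e N c a b := by
  rw [gd_toQ hN, CHz_apply]
  refine Finset.sum_congr rfl fun w hw => ?_
  rw [hdim w (Finset.mem_range.1 hw)]

theorem toQ_le {W : ℕ → Submodule K H} {B : Type*} [Ring B] [Algebra K B]
    {WB : ℚ → Submodule K B} {io : H →ₐ[K] B}
    (h : ∀ (w : ℕ) (x : H), x ∈ W w → io x ∈ WB w) {r : ℚ} {x : H} (hx : x ∈ toQ W r) :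
    io x ∈ WB r := by
  rcases toQ_cases r with ⟨w, rfl⟩ | hr
  · rw [toQ_nat] at hx
    exact h w x hx
  · rw [toQ_eq_bot W hr, Submodule.mem_bot] at hx
    rw [hx, map_zero]
    exact Submodule.zero_mem _

end alg

section form

variable {K B H Γ : Type*} [Field K] [Ring B] [Algebra K B] [Ring H] [Algebra K H]
    [Group Γ] [Fintype Γ] {u : Γ →* H} {io : H →ₐ[K] B} {ρ : B →ₗ[K] H} {θ : B →ₗ[K] B}
    {t : B →ₗ[K] K}

theorem io_injective (D : Rel u io ρ θ) : Function.Injective io :=
  Function.LeftInverse.injective (g := ρ) D.ret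

/-- the form does not vanish on the norm element -/
theorem form_norm_ne_zero (D : Rel u io ρ θ) (aug : H →ₐ[K] K)
    (nd : ∀ x, (∀ y, t (x * y) = 0) → x = 0) (tρ : ∀ b, t (io (ρ b)) = t b)
    {s : H} (hs0 : s ≠ 0) (hs : ∀ h : H, s * h = aug h • s) : t (io s) ≠ 0 := by
  intro h0
  apply hs0
  apply io_injective D
  rw [map_zero]
  refine nd _ fun y => ?_
  rw [← tρ, D.left, hs, map_smul, map_smul, h0, smul_zero]

end form

section norm

variable (K Γ : Type*) [Field K] [Group Γ]

/-- the norm element of a group algebra -/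
noncomputable def normEl [Fintype Γ] : MonoidAlgebra K Γ := ∑ g : Γ, MonoidAlgebra.of K Γ g

/-- the augmentation -/
noncomputable def augA : MonoidAlgebra K Γ →ₐ[K] K :=
  MonoidAlgebra.lift K K Γ 1

@[simp] theorem augA_of (g : Γ) : augA K Γ (MonoidAlgebra.of K Γ g) = 1 := by
  simp [augA]

theorem mul_normEl [Fintype Γ] (h : MonoidAlgebra K Γ) : h * normEl K Γ = augA K Γ h • normEl K Γ := by
  induction h using MonoidAlgebra.induction_on with
  | of g =>
    rw [augA_of, one_smul, normEl, Finset.mul_sum]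
    simp_rw [← map_mul]
    exact Equiv.sum_comp (Equiv.mulLeft g) fun x => MonoidAlgebra.of K Γ x
  | add x y hx hy => rw [add_mul, map_add, add_smul, hx, hy]
  | smul r x hx => rw [smul_mul_assoc, hx, map_smul, smul_assoc]

theorem normEl_mul [Fintype Γ] (h : MonoidAlgebra K Γ) : normEl K Γ * h = augA K Γ h • normEl K Γ := by
  induction h using MonoidAlgebra.induction_on with
  | of g =>
    rw [augA_of, one_smul, normEl, Finset.sum_mul]
    simp_rw [← map_mul]
    exact Equiv.sum_comp (Equiv.mulRight g) fun x => MonoidAlgebra.of K Γ x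
  | add x y hx hy => rw [mul_add, map_add, add_smul, hx, hy]
  | smul r x hx => rw [mul_smul_comm, hx, map_smul, smul_assoc]

theorem normEl_ne_zero [Fintype Γ] : normEl K Γ ≠ 0 := by
  classical
  intro h
  have h1 := congrArg (fun x : MonoidAlgebra K Γ => x.coeff 1) h
  simp only [normEl, MonoidAlgebra.coeff_sum, MonoidAlgebra.of_apply,
    MonoidAlgebra.coeff_single, Finsupp.finsetSum_apply, Finsupp.single_apply] at h1
  simp at h1

end norm

end Vale.P179.H554
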