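import Vale.Agent.P179.Sgn.Defs
import Vale.Agent.P179.H554.KlevH
import Vale.Agent.P179.H815.Num2
import Vale.Agent.P179.H175.L1

/-!
# Module CORE of the SIGNATURE project, part 1: everything except the module identities
-/

namespace Vale.P179.H554

open Matrix Module Vale.P179.H175 Vale.P179.H904 Vale.P179.H445 Vale.P179.H815 Vale.P179.Sgn

section data

variable {K A B Γ : Type} [Field K] [Ring A] [Algebra K A] [Ring B] [Algebra K B] [Group Γ]
  [Fintype Γ] (D : KData K A B Γ)

/-- the norm element `∑ g` -/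
noncomputable def nrm : A := ∑ g, D.γ g

theorem mul_nrm (h : A) : h * nrm D = D.aug h • nrm D := by
  have hh : h ∈ Submodule.span K (Set.range D.γ) := by rw [D.span]; trivial
  induction hh using Submodule.span_induction with
  | mem x hx =>
    obtain ⟨g, rfl⟩ := hx
    rw [D.augγ, one_smul, nrm, Finset.mul_sum]
    simp_rw [← map_mul]
    exact Equiv.sum_comp (Equiv.mulLeft g) fun x => D.γ x
  | zero => rw [zero_mul, map_zero, zero_smul]
  | add x y _ _ hx hy => rw [add_mul, map_add, add_smul, hx, hy]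
  | smul r x _ hx => rw [smul_mul_assoc, hx, map_smul, smul_assoc]

theorem nrm_mul (h : A) : nrm D * h = D.aug h • nrm D := by
  have hh : h ∈ Submodule.span K (Set.range D.γ) := by rw [D.span]; trivial
  induction hh using Submodule.span_induction with
  | mem x hx =>
    obtain ⟨g, rfl⟩ := hx
    rw [D.augγ, one_smul, nrm, Finset.sum_mul]
    simp_rw [← map_mul]
    exact Equiv.sum_comp (Equiv.mulRight g) fun x => D.γ x
  | zero => rw [mul_zero, map_zero, zero_smul]
  | add x y _ _ hx hy => rw [mul_add, map_add, add_smul, hx, hy]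
  | smul r x _ hx => rw [mul_smul_comm, hx, map_smul, smul_assoc]

theorem form_nrm_ne_zero : D.τ (D.ι (nrm D)) ≠ 0 :=
  form_norm_ne_zero D.rel D.aug D.nd D.tρ D.nz (nrm_mul D)

end data

/-- The inequality over `K`, with the three number identities of the modules as input. -/
theorem core_of {K A B Γ : Type} [Field K] [Ring A] [Algebra K A] [Ring B] [Algebra K B]
    [FiniteDimensional K B] [Group Γ] [Fintype Γ] (D : KData K A B Γ) {e M c : ℕ} [NeZero e]
    (H : HGr K A Γ D.γ e M c) {W : ℚ → Submodule K B} {J : Submodule K B} {n : ℕ}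
    {E : Fin n → B} (hB : Basic W J E) (hι : ∀ r : ℚ, ∀ h ∈ H.W r, D.ι h ∈ W r) (hZ : ZLoc B)
    {um : Matrix (ZMod e) (Fin n) ZQ}
    (EP2 : ∀ a m, gd W (cor2 K (D.ι (H.ε a)) (E m))
      = ∑ b, gd H.W (cor2 K (H.ε a) (H.ε b)) * um b m)
    {Wm : Matrix (ZMod e) (ZMod e) ZQ}
    (EP3 : ∀ a b, gd W (cor2 K (D.ι (H.ε a)) (D.ι (H.ε b)))
      = gd H.W (cor2 K (H.ε a) (H.ε b)) + ∑ a', ∑ b', gd H.W (cor2 K (H.ε a) (H.ε a')) *
          Wm a' b' * gd H.W (cor2 K (H.ε b') (H.ε b)))
    {z : Matrix (Fin n) (Fin n) ZQ}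
    (A3 : ct um * ymat W J E (fun a => D.ι (H.ε a)) = 1 + cmat W E * z) :
    e ≤ n := by
  obtain ⟨q, hq, hM⟩ := H.hM
  have h1 : e ≤ Fintype.card (Fin n) := by
    refine num_core (W := W) (J := J) (e := E) (η := fun a => D.ι (H.ε a)) (d := e) (N := M)
      (M := q) (c := c) (u := um) (Wm := Wm) (z := z) ?_ hB.gr hB.deg hB.idem hM hq
      (fun a => hι 0 _ (H.basic.deg a)) (fun a => by rw [← map_mul, H.basic.idem]) ?_ ?_ ?_ A3
    · intro X _ _ _ _ _ V hV ε hε hεε
      exact L1 hB hV hε hεε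
    · intro x y hx hy hxx hyy
      exact gd_cor2 hB.gr D.rel D.aug D.card0 D.tc D.nd D.tρ hZ (hι _ _ H.top)
        (form_nrm_ne_zero D) (mul_nrm D) hx hy hxx hyy
    · intro a m
      rw [EP2]
      exact Finset.sum_congr rfl fun b _ => by rw [H.dim]
    · intro a b
      rw [EP3, H.dim, Matrix.mul_apply]
      congr 1
      simp_rw [Matrix.mul_apply, Finset.sum_mul, H.dim]
      rw [Finset.sum_comm]
  simpa using h1

end Vale.P179.H554
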