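import Vale.Agent.P179.H300.Kap
import Vale.Agent.P179.H875.Cnt
import Vale.Agent.P179.Allb.DefsR

/-!
# R forms of KAP and ESYM (the proofs of 300 and 875, which do not use freeness)
-/

namespace Vale.P179.H554

open Module Vale.P179.Allb

section kap

open Vale.P179.H300.Kap

theorem kapr : KAPR := by
  intro p _ k _ _ _ D _ _ τ e _ hTW Λ Λ₁ _ _ _ _ A Q A₁ π hB d φ hφ hnil m hm
  have he : e ≠ 0 := NeZero.ne e
  obtain ⟨N₀, hN₀⟩ : IsUnit A.n := IsUnit.of_pow_eq_one A.npow he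
  let N : Λˣ := N₀ ^ m
  have hnpow : ∀ (r : ℕ) (x : D), A.n ^ r * A.u x = A.u ((τ ^ r) x) * A.n ^ r := by
    intro r
    induction r with
    | zero => intro x; simp
    | succ r ih =>
      intro x
      rw [pow_succ, mul_assoc, A.nu, ← mul_assoc, ih, mul_assoc]
      rfl
  have hN : ∀ x : D, (N : Λ) * A.u x = A.u ((τ ^ m) x) * N := by
    intro x
    have : (N : Λ) = A.n ^ m := by
      rw [← hN₀]; simp [N]
    rw [this]
    exact hnpow m x
  have hN' : ∀ x : D, (↑N⁻¹ : Λ) * A.u ((τ ^ m) x) = A.u x * ↑N⁻¹ := by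
    intro x
    have := hN x
    calc (↑N⁻¹ : Λ) * A.u ((τ ^ m) x) = ↑N⁻¹ * (A.u ((τ ^ m) x) * N) * ↑N⁻¹ := by
          rw [mul_assoc, mul_assoc, Units.mul_inv, mul_one]
      _ = ↑N⁻¹ * (N * A.u x) * ↑N⁻¹ := by rw [this]
      _ = A.u x * ↑N⁻¹ := by rw [← mul_assoc, Units.inv_mul, one_mul]
  -- the permutation of `Q`
  have hQ : Function.Bijective (fun x : Q => (⟨(τ ^ m) x, hm x x.2⟩ : Q)) := by
    refine Finite.injective_iff_bijective.1 ?_
    intro x y hxy
    have := congrArg Subtype.val hxy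
    exact Subtype.ext ((τ ^ m).injective this)
  -- `σ`
  have hmem : ∀ a ∈ A.CA Q, (N : Λ) * a * ↑N⁻¹ ∈ A.CA Q := by
    intro a ha
    rw [mem_CA] at ha ⊢
    intro x hx
    obtain ⟨y, hy⟩ := hQ.2 ⟨x, hx⟩
    have hy' : (τ ^ m) (y : D) = x := congrArg Subtype.val hy
    rw [← hy']
    calc A.u ((τ ^ m) (y : D)) * ((N : Λ) * a * ↑N⁻¹)
        = (A.u ((τ ^ m) (y : D)) * N) * a * ↑N⁻¹ := by simp only [mul_assoc]
      _ = (N : Λ) * (A.u y * a) * ↑N⁻¹ := by rw [← hN]; simp only [mul_assoc]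
      _ = (N : Λ) * a * (A.u y * ↑N⁻¹) := by rw [ha y y.2]; simp only [mul_assoc]
      _ = (N : Λ) * a * ↑N⁻¹ * A.u ((τ ^ m) (y : D)) := by rw [← hN']; simp only [mul_assoc]
  have hmem' : ∀ a ∈ A.CA Q, (↑N⁻¹ : Λ) * a * N ∈ A.CA Q := by
    intro a ha
    rw [mem_CA] at ha ⊢
    intro x hx
    have h1 := ha ((τ ^ m) x) (hm x hx)
    calc A.u x * (↑N⁻¹ * a * N) = (A.u x * ↑N⁻¹) * a * N := by simp only [mul_assoc]
      _ = ↑N⁻¹ * (A.u ((τ ^ m) x) * a) * N := by rw [← hN']; simp only [mul_assoc]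
      _ = ↑N⁻¹ * a * (A.u ((τ ^ m) x) * N) := by rw [h1]; simp only [mul_assoc]
      _ = ↑N⁻¹ * a * N * A.u x := by rw [← hN]; simp only [mul_assoc]
  let σ : A.CA Q →ₐ[k] A.CA Q :=
    { toFun := fun a => ⟨(N : Λ) * a * ↑N⁻¹, hmem a a.2⟩
      map_one' := Subtype.ext (by simp)
      map_mul' := fun a b => Subtype.ext (by
        change (N : Λ) * ((a : Λ) * b) * ↑N⁻¹ = (N : Λ) * a * ↑N⁻¹ * ((N : Λ) * b * ↑N⁻¹)
        simp only [mul_assoc, Units.inv_mul_cancel_left])
      map_zero' := Subtype.ext (by simp)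
      map_add' := fun a b => Subtype.ext (by
        change (N : Λ) * ((a : Λ) + b) * ↑N⁻¹ = (N : Λ) * a * ↑N⁻¹ + ((N : Λ) * b * ↑N⁻¹)
        rw [mul_add, add_mul])
      commutes' := fun r => Subtype.ext (by
        change (N : Λ) * (algebraMap k Λ r) * ↑N⁻¹ = algebraMap k Λ r
        rw [← Algebra.commutes, mul_assoc, Units.mul_inv, mul_one]) }
  have hσ : ∀ a : A.CA Q, ((σ a : A.CA Q) : Λ) = (N : Λ) * a * ↑N⁻¹ := fun a => rfl
  have hσsurj : Function.Surjective σ := by
    intro a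
    refine ⟨⟨↑N⁻¹ * a * N, hmem' a a.2⟩, Subtype.ext ?_⟩
    rw [hσ]
    change (N : Λ) * (↑N⁻¹ * a * N) * ↑N⁻¹ = a
    simp only [mul_assoc, Units.mul_inv_cancel_left, Units.mul_inv, mul_one]
  -- the kernel of `π` is stable
  have hkerπ : ∀ a : A.CA Q, π a = 0 → π (σ a) = 0 := by
    intro a ha
    refine A₁.nd _ ?_
    intro y
    obtain ⟨c, rfl⟩ := hB.surj y
    obtain ⟨c', rfl⟩ := hσsurj c
    rw [← map_mul, ← map_mul, hB.map_t]
    have h1 : A₁.t (π (a * c')) = 0 := by rw [map_mul, ha, zero_mul, map_zero]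
    rw [hB.map_t] at h1
    rw [← h1]
    rw [← finsum_comp_equiv (Equiv.ofBijective _ hQ)]
    refine finsum_congr ?_
    intro q
    change A.t (((σ (a * c') : A.CA Q) : Λ) * A.u ((τ ^ m) q)) = A.t (((a * c' : A.CA Q) : Λ) * A.u q)
    rw [hσ, mul_assoc, hN', ← mul_assoc, A.tc, mul_assoc, ← mul_assoc, Units.inv_mul, one_mul]
  -- the composite
  have hψ : Function.Surjective (φ.comp π) := hφ.comp hB.surj
  have hψσ : Function.Surjective ((φ.comp π).comp σ) := hψ.comp hσsurj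
  have hker : ∀ a : A.CA Q, (φ.comp π) a = 0 → ((φ.comp π).comp σ) a = 0 := by
    intro a ha
    refine eq_zero_of_nil _ ?_
    intro X Y
    obtain ⟨x, rfl⟩ := hψσ X
    obtain ⟨y, rfl⟩ := hψσ Y
    rw [← map_mul, ← map_mul]
    have h1 : φ (π (x * a * y)) = 0 := by
      have h2 : φ (π a) = 0 := ha
      rw [map_mul, map_mul, map_mul, map_mul, h2, mul_zero, zero_mul]
    obtain ⟨r, hr⟩ := hnil _ h1
    refine ⟨r, ?_⟩
    rw [← map_pow] at hr ⊢
    have h3 := hkerπ _ hr
    change φ (π (σ ((x * a * y) ^ r))) = 0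
    rw [h3, map_zero]
  obtain ⟨α, hα⟩ := lift_surj (φ.comp π) hψ ((φ.comp π).comp σ) hker
  have hαs : Function.Surjective α := by
    intro M
    obtain ⟨a, ha⟩ := hψσ M
    exact ⟨(φ.comp π) a, by rw [hα, ha]⟩
  obtain ⟨κ, hκ, hκM⟩ := inner_of_surj α hαs
  refine ⟨κ, hκ, ?_⟩
  intro x
  have hx : ∀ x : D, A.u x ∈ A.CA Q := by
    intro x
    rw [mem_CA]
    intro y _
    rw [← map_mul, ← map_mul, mul_comm]
  have h1 : (φ.comp π) ⟨A.u x, hx x⟩ = φ (A₁.u (QuotientGroup.mk x)) := by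
    change φ (π ⟨A.u x, hx x⟩) = _
    rw [hB.map_u]
  have h2 : ((φ.comp π).comp σ) ⟨A.u x, hx x⟩ = φ (A₁.u (QuotientGroup.mk ((τ ^ m) x))) := by
    change φ (π (σ ⟨A.u x, hx x⟩)) = _
    have : σ ⟨A.u x, hx x⟩ = ⟨A.u ((τ ^ m) x), hx _⟩ := by
      refine Subtype.ext ?_
      rw [hσ]
      change (N : Λ) * A.u x * ↑N⁻¹ = A.u ((τ ^ m) x)
      rw [hN, mul_assoc, Units.mul_inv, mul_one]
    rw [this, hB.map_u]
  rw [← h1, hκM, hα, h2]

end kap

section esym

open Vale.P179.H875 Vale.P179.H875.Perm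

open scoped Classical

theorem esymr : ESYMR := by
  intro p _ k _ _ D _ _ τ e _ hT Λ _ _ A X i
  have := A.fin
  have := fdPX A.toPX
  have hni : ∀ (m : ℕ) (x : D), A.n ^ m * A.u x = A.u ((τ ^ m) x) * A.n ^ m := by
    intro m
    induction m with
    | zero => intro x; simp
    | succ m ih =>
      intro x
      rw [pow_succ, mul_assoc, A.nu, ← mul_assoc, ih, mul_assoc, ← pow_succ]
      rfl
  -- inverse of `n ^ i`
  let m : Λ := A.n ^ i
  let m' : Λ := A.n ^ (i * (e - 1))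
  have he : 1 ≤ e := Nat.one_le_iff_ne_zero.2 (NeZero.ne e)
  have hpow : A.n ^ (i * e) = 1 := by rw [mul_comm, pow_mul, A.npow, one_pow]
  have hie : i + i * (e - 1) = i * e := by
    obtain ⟨e', rfl⟩ := Nat.exists_eq_add_of_le he
    simp only [Nat.add_sub_cancel_left]
    ring
  have hmm' : m * m' = 1 := by
    show A.n ^ i * A.n ^ (i * (e - 1)) = 1
    rw [← pow_add, hie, hpow]
  have hm'm : m' * m = 1 := by
    show A.n ^ (i * (e - 1)) * A.n ^ i = 1
    rw [← pow_add, add_comm, hie, hpow]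
  let E : Λ ≃ₗ[k] Λ :=
    { toFun := fun a => m * a * m'
      invFun := fun a => m' * a * m
      map_add' := fun a b => by rw [mul_add, add_mul]
      map_smul' := fun r a => by rw [mul_smul_comm, smul_mul_assoc, RingHom.id_apply]
      left_inv := fun a => by
        show m' * (m * a * m') * m = a
        calc m' * (m * a * m') * m = (m' * m) * a * (m' * m) := by simp only [mul_assoc]
          _ = a := by rw [hm'm, one_mul, mul_one]
      right_inv := fun a => by
        show m * (m' * a * m) * m' = a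
        calc m * (m' * a * m) * m' = (m * m') * a * (m * m') := by simp only [mul_assoc]
          _ = a := by rw [hmm', one_mul, mul_one] }
  have hE : ∀ a, E a = m * a * m' := fun a => rfl
  have hEmul : ∀ a c, E a * E c = E (a * c) := by
    intro a c
    rw [hE, hE, hE]
    calc m * a * m' * (m * c * m') = m * a * (m' * m) * c * m' := by simp only [mul_assoc]
      _ = m * (a * c) * m' := by rw [hm'm, mul_one]; simp only [mul_assoc]
  have hEt : ∀ a, A.t (E a) = A.t a := by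
    intro a
    rw [hE, mul_assoc, A.tc, mul_assoc, hm'm, mul_one]
  have hEu : ∀ x, E (A.u x) = A.u ((τ ^ i) x) := by
    intro x
    rw [hE]
    show A.n ^ i * A.u x * m' = _
    rw [hni, mul_assoc]
    show A.u ((τ ^ i) x) * (m * m') = _
    rw [hmm', mul_one]
  let X' : Subgroup D := X.map ((τ ^ i : MulAut D) : D →* D)
  have hCA : ∀ a, E a ∈ A.CA X' ↔ a ∈ A.CA X := by
    intro a
    rw [mem_CA, mem_CA]
    constructor
    · intro h x hx
      have h1 := h ((τ ^ i) x) ⟨x, hx, rfl⟩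
      rw [← hEu, hEmul, hEmul] at h1
      exact E.injective h1
    · rintro h _ ⟨x, hx, rfl⟩
      show A.u ((τ ^ i) x) * E a = E a * A.u ((τ ^ i) x)
      rw [← hEu, hEmul, hEmul, h x hx]
  have hKA : ∀ a, E a ∈ A.KA X' ↔ a ∈ A.KA X := by
    intro a
    rw [mem_KA, mem_KA, hCA]
    refine and_congr_right fun _ => ?_
    constructor
    · intro h c hc
      have h1 := h (E c) ((hCA c).2 hc)
      rwa [hEmul, hEt] at h1
    · intro h c hc
      have h1 := h (E.symm c) ((hCA _).1 (by rwa [LinearEquiv.apply_symm_apply]))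
      rw [← hEt, ← hEmul, LinearEquiv.apply_symm_apply] at h1
      exact h1
  have h1 : finrank k (Subalgebra.toSubmodule (A.CA X')) =
      finrank k (Subalgebra.toSubmodule (A.CA X)) := by
    have h2 : (Subalgebra.toSubmodule (A.CA X)).map E.toLinearMap =
        Subalgebra.toSubmodule (A.CA X') := by
      ext a
      constructor
      · rintro ⟨c, hc, rfl⟩
        exact (hCA c).2 hc
      · intro ha
        refine ⟨E.symm a, (hCA _).1 ?_, E.apply_symm_apply a⟩
        rw [LinearEquiv.apply_symm_apply]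
        exact ha
    rw [← h2]
    exact LinearEquiv.finrank_map_eq E _
  have h3 : finrank k (A.KA X') = finrank k (A.KA X) := by
    have h2 : (A.KA X).map E.toLinearMap = A.KA X' := by
      ext a
      constructor
      · rintro ⟨c, hc, rfl⟩
        exact (hKA c).2 hc
      · intro ha
        refine ⟨E.symm a, (hKA _).1 ?_, E.apply_symm_apply a⟩
        rw [LinearEquiv.apply_symm_apply]
        exact ha
    rw [← h2]
    exact LinearEquiv.finrank_map_eq E _
  have h4 := cnti p k D hT.pgr Λ A.toPX X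
  have h5 := cnti p k D hT.pgr Λ A.toPX X'
  show A.cnt X' = A.cnt X
  omega

end esym

end Vale.P179.H554
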