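import Vale.Agent.P179.Allb.StepR
import Vale.Agent.P179.Allb.Main
import Vale.Agent.P179.H554.RForms

/-!
# REL: the step without freeness, and the goal `cnt X = |D|` for `X` not inside `D2`
-/

namespace Vale.P179.H554

open Module Vale.P179.Allb Vale.P179.Sgn

theorem cutmr : CUTMR :=
  Vale.P179.H737.cutmr_of Vale.P179.H875.cnti Vale.P179.H417.cutp Vale.P179.H875.cutc
    Vale.P179.H190.primr

/-- the step for all subgroups acted on faithfully -/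
theorem stepR_all : STEPR :=
  stepR Vale.P179.H417.Bar.barr y1 y2 kapr Vale.P179.H904.wmodr Vale.P179.H190.matmr
    cutmr psir esymr

section

variable {D : Type} [CommGroup D] {τ : MulAut D} {D1 D2 : Subgroup D}

theorem pow_mem' {D1 : Subgroup D} (h1 : ∀ x ∈ D1, τ x ∈ D1) (i : ℕ) :
    ∀ x ∈ D1, (τ ^ i) x ∈ D1 := by
  induction i with
  | zero => intro x hx; simpa using hx
  | succ i ih =>
    intro x hx
    rw [pow_succ, MulAut.mul_apply]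
    exact ih _ (h1 x hx)

/-- a subgroup which is not inside `D2` is acted on faithfully -/
theorem fr_of_not_le {e : ℕ} (h1 : ∀ x ∈ D1, τ x ∈ D1) (h2 : ∀ x ∈ D2, τ x ∈ D2)
    (hi : D1 ⊓ D2 = ⊥) (hs : D1 ⊔ D2 = ⊤)
    (hfree : ∀ i : ℕ, ∀ d ∈ D1, d ≠ 1 → (τ ^ i) d = d → e ∣ i) {X : Subgroup D}
    (hX : ¬ X ≤ D2) : Fr τ e X := by
  intro i hq
  obtain ⟨x, hxX, hx2⟩ := Set.not_subset.1 hX
  obtain ⟨a, ha, b, hb, hab⟩ := Subgroup.mem_sup.1 (hs ▸ Subgroup.mem_top x : x ∈ D1 ⊔ D2)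
  refine hfree i a ha ?_ ?_
  · rintro rfl
    rw [one_mul] at hab
    exact hx2 (hab ▸ hb)
  · have h3 := hq x hxX
    rw [← hab, map_mul] at h3
    have h4 : a⁻¹ * (τ ^ i) a = b * ((τ ^ i) b)⁻¹ := by
      rw [inv_mul_eq_iff_eq_mul, ← mul_assoc, ← h3, mul_assoc, mul_inv_cancel, mul_one]
    have h5 : a⁻¹ * (τ ^ i) a ∈ D1 ⊓ D2 :=
      Subgroup.mem_inf.2 ⟨D1.mul_mem (D1.inv_mem ha) (pow_mem' h1 i a ha), by
        rw [h4]
        exact D2.mul_mem hb (D2.inv_mem (pow_mem' h2 i b hb))⟩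
    rw [hi, Subgroup.mem_bot, inv_mul_eq_one] at h5
    exact h5.symm

end

/-- **STEPrel**: one can make all subgroups not inside `D2` good. -/
theorem step_rel (p : ℕ) [Fact p.Prime] (k : Type) [Field k] [IsAlgClosed k] [CharP k p]
    (D : Type) [CommGroup D] [Finite D] (τ : MulAut D) (e : ℕ) [NeZero e] (hτ : TW0 p D τ e)
    (D1 D2 : Subgroup D) (h1 : ∀ x ∈ D1, τ x ∈ D1) (h2 : ∀ x ∈ D2, τ x ∈ D2)
    (hi : D1 ⊓ D2 = ⊥) (hs : D1 ⊔ D2 = ⊤)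
    (hfree : ∀ i : ℕ, ∀ d ∈ D1, d ≠ 1 → (τ ^ i) d = d → e ∣ i)
    (Λ : Type) [Ring Λ] [Algebra k Λ] (A : AX k D Λ τ e) :
    ∃ (Λ' : Type) (_ : Ring Λ') (_ : Algebra k Λ') (A' : AX k D Λ' τ e), lB k Λ' ≤ lB k Λ ∧
      ∀ X : Subgroup D, ¬ X ≤ D2 → A'.cnt X = Nat.card D := by
  obtain ⟨Λ', i1, i2, A', hl, hg⟩ := allGoodR stepR_all p k D τ e hτ _ Λ A le_rfl
  exact ⟨Λ', i1, i2, A', hl, fun X hX => hg X (fr_of_not_le h1 h2 hi hs hfree hX)⟩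

end Vale.P179.H554
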