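import Vale.Agent.P179.Rel.Defs
import Vale.Agent.P179.H554.StepRel

/-!
# REL, module LOOPR: every subgroup not contained in `D2` can be made good
-/

namespace Vale.P179.H554

open Module Vale.P179.Rel

/-- **MODULE LOOPR** -/
theorem loopr : LOOPR := by
  intro p _ k _ _ _ D _ _ τ e _ D1 D2 hT Λ _ _ A
  exact step_rel p k D τ e hT.toTW0 D1 D2 hT.s1 hT.s2 hT.dis hT.sup hT.free1 Λ A

end Vale.P179.H554
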