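import Vale.Agent.P179.H531.Sum

/-!
# Module PSI of ALLB, part 1: coordinates of `M_J(Λ)` with respect to a basis of `M_J(k)`
-/

namespace Vale.P179.H554

open Matrix Module

section ten

variable {k Λ J : Type*} [Field k] [Ring Λ] [Algebra k Λ] [Fintype J] [DecidableEq J]

/-- `X ⊗ a` as a matrix over `Λ` -/
def ten (X : Matrix J J k) (a : Λ) : Matrix J J Λ := Matrix.of fun c c' => X c c' • a

omit [Fintype J] [DecidableEq J] in
@[simp] theorem ten_apply (X : Matrix J J k) (a : Λ) (c c' : J) : ten X a c c' = X c c' • a := rfl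

omit [DecidableEq J] in
theorem ten_mul (X Y : Matrix J J k) (a b : Λ) : ten X a * ten Y b = ten (X * Y) (a * b) := by
  ext c c'
  simp only [Matrix.mul_apply, ten_apply, smul_mul_smul_comm, ← Finset.sum_smul]

theorem ten_one : ten (1 : Matrix J J k) (1 : Λ) = 1 := by
  ext c c'
  rw [ten_apply, Matrix.one_apply, Matrix.one_apply]
  split_ifs <;> simp

omit [DecidableEq J] in
theorem trace_ten (X : Matrix J J k) (a : Λ) : (ten X a).trace = X.trace • a := by
  simp [Matrix.trace, Finset.sum_smul]

variable {T : Type*} [Fintype T]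

/-- the coordinate at `i` -/
noncomputable def co (θ : Basis T k (Matrix J J k)) (i : T) (N : Matrix J J Λ) : Λ :=
  ∑ c, ∑ c', θ.repr (Matrix.single c c' 1) i • N c c'

theorem sum_co (θ : Basis T k (Matrix J J k)) (N : Matrix J J Λ) :
    ∑ i, ten (θ i) (co θ i N) = N := by
  ext c c'
  simp only [Matrix.sum_apply, ten_apply, co, Finset.smul_sum, smul_smul]
  rw [Finset.sum_comm]
  have h1 : ∀ b b' : J, ∑ i, (θ i c c' * θ.repr (Matrix.single b b' 1) i) • N b b' =
      (Matrix.single b b' (1 : k) c c') • N b b' := by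
    intro b b'
    rw [← Finset.sum_smul]
    congr 1
    conv_rhs => rw [← θ.sum_repr (Matrix.single b b' (1 : k))]
    rw [Matrix.sum_apply]
    exact Finset.sum_congr rfl fun i _ => by rw [Matrix.smul_apply, smul_eq_mul, mul_comm]
  have h2 : ∀ b : J, ∑ i, ∑ b', (θ i c c' * θ.repr (Matrix.single b b' 1) i) • N b b' =
      ∑ b', (Matrix.single b b' (1 : k) c c') • N b b' := by
    intro b
    rw [Finset.sum_comm]
    exact Finset.sum_congr rfl fun b' _ => h1 b b'
  rw [Finset.sum_congr rfl fun b _ => h2 b]
  rw [Finset.sum_eq_single c, Finset.sum_eq_single c']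
  · simp
  · intro b' _ hb'
    simp [Matrix.single_apply, hb']
  · simp
  · intro b _ hb
    refine Finset.sum_eq_zero fun b' _ => ?_
    simp [Matrix.single_apply, hb]
  · simp

theorem co_ten [DecidableEq T] (θ : Basis T k (Matrix J J k)) (i j : T) (a : Λ) :
    co θ i (ten (θ j) a) = if i = j then a else 0 := by
  have h1 : co θ i (ten (θ j) a) = (θ.repr (∑ c, ∑ c', θ j c c' • Matrix.single c c' (1 : k)) i) • a := by
    simp only [co, ten_apply, map_sum, map_smul, Finsupp.finsetSum_apply, Finsupp.smul_apply,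
      smul_eq_mul, Finset.sum_smul, smul_smul]
    exact Finset.sum_congr rfl fun c _ => Finset.sum_congr rfl fun c' _ => by rw [mul_comm]
  have h2 : ∑ c, ∑ c', θ j c c' • Matrix.single c c' (1 : k) = θ j := by
    conv_rhs => rw [Matrix.matrix_eq_sum_single (θ j)]
    simp [Matrix.smul_single]
  rw [h1, h2, θ.repr_self, Finsupp.single_apply]
  split_ifs with h h' h'
  · rw [one_smul]
  · exact absurd h.symm h'
  · exact absurd h'.symm h
  · rw [zero_smul]

theorem co_add (θ : Basis T k (Matrix J J k)) (i : T) (N N' : Matrix J J Λ) :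
    co θ i (N + N') = co θ i N + co θ i N' := by
  simp [co, Finset.sum_add_distrib]

theorem co_smul (θ : Basis T k (Matrix J J k)) (i : T) (r : k) (N : Matrix J J Λ) :
    co θ i (r • N) = r • co θ i N := by
  simp [co, Finset.smul_sum, smul_comm r]

theorem co_zero (θ : Basis T k (Matrix J J k)) (i : T) :
    co θ i (0 : Matrix J J Λ) = 0 := by
  simp [co]

theorem co_sum (θ : Basis T k (Matrix J J k)) (i : T) {α : Type*} (s : Finset α)
    (f : α → Matrix J J Λ) : co θ i (∑ x ∈ s, f x) = ∑ x ∈ s, co θ i (f x) := by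
  classical
  induction s using Finset.induction_on with
  | empty => simp [co_zero]
  | insert a s ha ih => rw [Finset.sum_insert ha, Finset.sum_insert ha, co_add, ih]

/-- uniqueness of coordinates -/
theorem co_eq_of_sum (θ : Basis T k (Matrix J J k)) {N : Matrix J J Λ} {f : T → Λ}
    (h : ∑ i, ten (θ i) (f i) = N) (i : T) : co θ i N = f i := by
  classical
  rw [← h, co_sum]
  simp [co_ten]

end ten

end Vale.P179.H554
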