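import Vale.Agent.P179.H554.Psi1

/-!
# Module PSI of ALLB, part 2: the fixed point of the conjugation action and traces
-/

namespace Vale.P179.H554

open Matrix Module

/-- `M_J(k) = k ⊕ (permutation module without fixed points)` -/
structure PF {k J T Q : Type*} [Field k] [Fintype J] [DecidableEq J] [Group Q]
    (r : Q →* Matrix J J k) (θ : Basis (Option T) k (Matrix J J k)) : Prop where
  one : θ none = 1
  st : ∀ x i, ∃ j, r x * θ (some i) * r x⁻¹ = θ (some j)
  nf : ∀ i, ∃ x, r x * θ (some i) ≠ θ (some i) * r x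

namespace PF

section act

variable {k J T Q : Type*} [Field k] [Fintype J] [DecidableEq J] [Group Q]
  {r : Q →* Matrix J J k} {θ : Basis (Option T) k (Matrix J J k)}

theorem rr (r : Q →* Matrix J J k) (x : Q) : r x * r x⁻¹ = 1 := by
  rw [← map_mul, mul_inv_cancel, map_one]

theorem rr' (r : Q →* Matrix J J k) (x : Q) : r x⁻¹ * r x = 1 := by
  rw [← map_mul, inv_mul_cancel, map_one]

theorem ex (h : PF r θ) (x : Q) (i : Option T) : ∃ j, r x * θ i * r x⁻¹ = θ j := by
  cases i with
  | none => exact ⟨none, by rw [h.one, mul_one, rr]⟩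
  | some i =>
    obtain ⟨j, hj⟩ := h.st x i
    exact ⟨some j, hj⟩

/-- the image of an index -/
noncomputable def mv (h : PF r θ) (x : Q) (i : Option T) : Option T := (h.ex x i).choose

theorem θ_mv (h : PF r θ) (x : Q) (i : Option T) : θ (h.mv x i) = r x * θ i * r x⁻¹ :=
  (h.ex x i).choose_spec.symm

/-- the action on the indices -/
@[reducible] noncomputable def act (h : PF r θ) : MulAction Q (Option T) where
  smul := h.mv
  one_smul i := by
    apply θ.injective
    change θ (h.mv 1 i) = θ i
    rw [h.θ_mv, inv_one, map_one, one_mul, mul_one]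
  mul_smul x y i := by
    apply θ.injective
    change θ (h.mv (x * y) i) = θ (h.mv x (h.mv y i))
    rw [h.θ_mv, h.θ_mv, h.θ_mv, _root_.mul_inv_rev, map_mul, map_mul]
    simp only [mul_assoc]

theorem mv_none (h : PF r θ) (x : Q) : h.mv x none = none := by
  apply θ.injective
  rw [h.θ_mv, h.one, mul_one, rr]

theorem fixed_iff (h : PF r θ) (i : Option T) : (∀ x, h.mv x i = i) ↔ i = none := by
  constructor
  · intro hi
    cases i with
    | none => rfl
    | some i =>
      obtain ⟨x, hx⟩ := h.nf i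
      exfalso
      apply hx
      have h1 := h.θ_mv x (some i)
      rw [hi x] at h1
      conv_rhs => rw [h1]
      rw [mul_assoc, rr', mul_one]
  · rintro rfl x
    exact h.mv_none x

end act

section sum

variable {k Λ J T Q : Type*} [Field k] [Ring Λ] [Algebra k Λ] [Fintype J] [DecidableEq J]
  [Fintype T] [Group Q] {r : Q →* Matrix J J k} {θ : Basis (Option T) k (Matrix J J k)}
  {u : Q →* Λ}

theorem uu (u : Q →* Λ) (x : Q) : u x * u x⁻¹ = 1 := by
  rw [← map_mul, mul_inv_cancel, map_one]

theorem uu' (u : Q →* Λ) (x : Q) : u x⁻¹ * u x = 1 := by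
  rw [← map_mul, inv_mul_cancel, map_one]

/-- equivariance of the coordinates -/
theorem co_mv (h : PF r θ) {N : Matrix J J Λ}
    (hN : ∀ x, N * ten (r x) (u x) = ten (r x) (u x) * N) (x : Q) (i : Option T) :
    co θ (h.mv x i) N = u x * co θ i N * u x⁻¹ := by
  let _ := h.act
  have h1 : ∑ j, ten (θ j) (u x * co θ (x⁻¹ • j) N * u x⁻¹) = N := by
    rw [← Equiv.sum_comp (MulAction.toPerm x)]
    simp only [MulAction.toPerm_apply, inv_smul_smul]
    have h2 : ∀ j : Option T, ten (θ (x • j)) (u x * co θ j N * u x⁻¹) =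
        ten (r x) (u x) * ten (θ j) (co θ j N) * ten (r x⁻¹) (u x⁻¹) := by
      intro j
      rw [ten_mul, ten_mul]
      congr 1
      exact h.θ_mv x j
    rw [Finset.sum_congr rfl fun j _ => h2 j, ← Finset.sum_mul, ← Finset.mul_sum, sum_co, ← hN,
      mul_assoc, ten_mul, rr, uu, ten_one, mul_one]
  have h3 := co_eq_of_sum θ h1 (h.mv x i)
  rw [h3]
  congr 3
  change x⁻¹ • (x • i) = i
  exact inv_smul_smul x i

theorem co_none_comm (h : PF r θ) {N : Matrix J J Λ}
    (hN : ∀ x, N * ten (r x) (u x) = ten (r x) (u x) * N) (x : Q) :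
    u x * co θ none N = co θ none N * u x := by
  have h1 := h.co_mv hN x none
  rw [h.mv_none] at h1
  conv_rhs => rw [h1]
  rw [mul_assoc, uu', mul_one]

/-- traces against an invariant functional -/
theorem trace_gen {p : ℕ} [Fact p.Prime] [CharP k p] (hQ : IsPGroup p Q) (h : PF r θ)
    {N : Matrix J J Λ} (hN : ∀ x, N * ten (r x) (u x) = ten (r x) (u x) * N)
    (g : Λ →ₗ[k] k) (hg : ∀ x a, g (u x * a * u x⁻¹) = g a) (X : Matrix J J k)
    (hX : ∀ x, r x * X = X * r x) :
    g (N * ten X 1).trace = X.trace * g (co θ none N) := by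
  classical
  let _ := h.act
  have h1 : g (N * ten X 1).trace = ∑ i, (θ i * X).trace * g (co θ i N) := by
    conv_lhs => rw [← sum_co θ N, Finset.sum_mul, Matrix.trace_sum, map_sum]
    refine Finset.sum_congr rfl fun i _ => ?_
    rw [ten_mul, mul_one, trace_ten, map_smul, smul_eq_mul]
  rw [h1, H531.sum_eq_sum_fixed hQ (fun i => (θ i * X).trace * g (co θ i N))]
  · rw [Finset.sum_eq_single none]
    · rw [h.one, one_mul]
    · intro i hi hi'
      exact absurd ((h.fixed_iff i).1 (Finset.mem_filter.1 hi).2) hi'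
    · intro hi
      exact absurd (Finset.mem_filter.2 ⟨Finset.mem_univ _, fun x => h.mv_none x⟩) hi
  · intro x i
    change (θ (h.mv x i) * X).trace * g (co θ (h.mv x i) N) = _
    rw [h.θ_mv, h.co_mv hN, hg]
    congr 1
    have h2 : r x * θ i * r x⁻¹ * X = r x * (θ i * X * r x⁻¹) := by
      rw [mul_assoc (r x * θ i), hX x⁻¹]
      simp only [mul_assoc]
    rw [h2, Matrix.trace_mul_comm, mul_assoc (θ i * X), rr', mul_one]

/-- the trace of a product against an invariant functional -/
theorem trace_mul {p : ℕ} [Fact p.Prime] [CharP k p] (hQ : IsPGroup p Q) (h : PF r θ)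
    {N N' : Matrix J J Λ} (hN : ∀ x, N * ten (r x) (u x) = ten (r x) (u x) * N)
    (hN' : ∀ x, N' * ten (r x) (u x) = ten (r x) (u x) * N')
    (g : Λ →ₗ[k] k) (hg : ∀ x a, g (u x * a * u x⁻¹) = g a) :
    g (N * N').trace = (Fintype.card J : k) * g (co θ none N * co θ none N') := by
  classical
  let _ := h.act
  have h1 : g (N * N').trace =
      ∑ z : Option T × Option T, (θ z.1 * θ z.2).trace * g (co θ z.1 N * co θ z.2 N') := by
    conv_lhs => rw [← sum_co θ N, ← sum_co θ N', Finset.sum_mul_sum, Matrix.trace_sum, map_sum]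
    rw [Fintype.sum_prod_type]
    refine Finset.sum_congr rfl fun i _ => ?_
    rw [Matrix.trace_sum, map_sum]
    refine Finset.sum_congr rfl fun i' _ => ?_
    rw [ten_mul, trace_ten, map_smul, smul_eq_mul]
  rw [h1, H531.sum_eq_sum_fixed hQ
    (fun z : Option T × Option T => (θ z.1 * θ z.2).trace * g (co θ z.1 N * co θ z.2 N'))]
  · rw [Finset.sum_eq_single (none, none)]
    · simp only [h.one, one_mul, Matrix.trace_one]
    · rintro ⟨i, i'⟩ hi hi'
      exfalso
      apply hi'
      have h2 := (Finset.mem_filter.1 hi).2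
      rw [(h.fixed_iff i).1 fun x => congrArg Prod.fst (h2 x),
        (h.fixed_iff i').1 fun x => congrArg Prod.snd (h2 x)]
    · intro hi
      exact absurd (Finset.mem_filter.2 ⟨Finset.mem_univ _, fun x =>
        Prod.ext (h.mv_none x) (h.mv_none x)⟩) hi
  · rintro x ⟨i, i'⟩
    change (θ (h.mv x i) * θ (h.mv x i')).trace * g (co θ (h.mv x i) N * co θ (h.mv x i') N') = _
    rw [h.θ_mv, h.θ_mv, h.co_mv hN, h.co_mv hN']
    have h2 : r x * θ i * r x⁻¹ * (r x * θ i' * r x⁻¹) = r x * (θ i * θ i' * r x⁻¹) := by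
      rw [mul_assoc (r x * θ i), ← mul_assoc (r x⁻¹), ← mul_assoc (r x⁻¹), rr', one_mul]
      simp only [mul_assoc]
    have h3 : u x * co θ i N * u x⁻¹ * (u x * co θ i' N' * u x⁻¹) =
        u x * (co θ i N * co θ i' N') * u x⁻¹ := by
      rw [mul_assoc (u x * co θ i N), ← mul_assoc (u x⁻¹), ← mul_assoc (u x⁻¹), uu', one_mul]
      simp only [mul_assoc]
    rw [h2, h3, hg, Matrix.trace_mul_comm, mul_assoc (θ i * θ i'), rr', mul_one]

end sum

section uni

variable {k J Q : Type*} [Field k] [Fintype J] [DecidableEq J] [Group Q]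

/-- the trace of an element of a `p`-group -/
theorem trace_eq_card {p : ℕ} [hp : Fact p.Prime] [CharP k p] (hQ : IsPGroup p Q)
    (r : Q →* Matrix J J k) (x : Q) : (r x).trace = (Fintype.card J : k) := by
  obtain ⟨n, hn⟩ := hQ x
  have h1 : IsNilpotent (r x - 1) := by
    by_cases hJ : Nonempty J
    · have : CharP (Matrix J J k) p := Matrix.charP p
      refine ⟨p ^ n, ?_⟩
      rw [sub_pow_char_pow_of_commute p n (Commute.one_right (r x)), one_pow, ← map_pow, hn,
        map_one, sub_self]
    · have : IsEmpty J := not_nonempty_iff.1 hJ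
      exact ⟨1, Subsingleton.elim _ _⟩
  have h2 := Matrix.isNilpotent_trace_of_isNilpotent h1
  rw [isNilpotent_iff_eq_zero, Matrix.trace_sub, Matrix.trace_one, sub_eq_zero] at h2
  exact h2

end uni

end PF

end Vale.P179.H554
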