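import Vale.Agent.P179.H554.Psi2
import Vale.Agent.P179.Allb.Defs

/-!
# Module PSI of ALLB, part 3: the Brauer quotient of `M_J(Λ)` at `Q`
-/

namespace Vale.P179.H554

open Matrix Module Vale.P179.Allb

section lift

variable {k A B C : Type*} [Field k] [Ring A] [Algebra k A] [Ring B] [Algebra k B] [Ring C]
  [Algebra k C]

/-- lifting through a surjection -/
theorem exists_lift (f : A →ₐ[k] B) (hf : Function.Surjective f) (g : A →ₐ[k] C)
    (h : ∀ a, f a = 0 → g a = 0) : ∃ φ : B →ₐ[k] C, ∀ a, φ (f a) = g a := by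
  have h' : ∀ a b, f a = f b → g a = g b := fun a b hab => by
    rw [← sub_eq_zero, ← map_sub]
    exact h _ (by rw [map_sub, hab, sub_self])
  choose s hs using hf
  have key : ∀ a, g (s (f a)) = g a := fun a => h' _ _ (hs _)
  refine ⟨AlgHom.ofLinearMap
    { toFun := fun b => g (s b)
      map_add' := fun x y => by
        rw [← map_add]
        exact h' _ _ (by rw [hs, map_add, hs, hs])
      map_smul' := fun r x => by
        rw [RingHom.id_apply, ← map_smul]
        exact h' _ _ (by rw [hs, map_smul, hs]) } ?_ ?_, fun a => key a⟩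
  · change g (s 1) = 1
    rw [← map_one g]
    exact h' _ _ (by rw [hs, map_one])
  · intro x y
    change g (s (x * y)) = g (s x) * g (s y)
    rw [← map_mul]
    exact h' _ _ (by rw [hs, map_mul, hs, hs])

end lift

section bar

variable {k D Λ Λ₁ : Type} [Field k] [CommGroup D] [Ring Λ] [Algebra k Λ] [Ring Λ₁]
    [Algebra k Λ₁] {τ : MulAut D} {e : ℕ} {A : AX k D Λ τ e} {Q : Subgroup D}
    {A₁ : AX k (D ⧸ Q) Λ₁ 1 1} {π : A.CA Q →ₐ[k] Λ₁}

theorem mem_CA' {A : PX k D Λ} {Q : Subgroup D} {a : Λ} :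
    a ∈ A.CA Q ↔ ∀ x ∈ Q, A.u x * a = a * A.u x := by
  unfold PX.CA
  rw [Subalgebra.mem_centralizer_iff]
  constructor
  · intro h x hx
    exact h _ ⟨x, hx, rfl⟩
  · rintro h _ ⟨x, hx, rfl⟩
    exact h x hx

/-- the test for zero in `Λ₁` -/
theorem bar_ext (hb : Bar A Q A₁ π) {x : Λ₁} (h : ∀ z : A.CA Q, A₁.t (x * π z) = 0) : x = 0 := by
  refine A₁.nd x fun y => ?_
  obtain ⟨z, rfl⟩ := hb.surj y
  exact h z

/-- equality of images -/
theorem bar_eq (hb : Bar A Q A₁ π) {a b : A.CA Q}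
    (h : ∀ z ∈ A.CA Q, ∀ q ∈ Q, A.t (a * (z * A.u q)) = A.t (b * (z * A.u q))) : π a = π b := by
  rw [← sub_eq_zero]
  refine bar_ext hb fun z => ?_
  rw [sub_mul, map_sub, sub_eq_zero, ← map_mul, ← map_mul, hb.map_t, hb.map_t]
  refine finsum_congr fun q => ?_
  have h1 := h z z.2 q q.2
  have h2 : ∀ c : A.CA Q, ((c * z : A.CA Q) : Λ) * A.u q = c * (z * A.u q) := fun c => by
    rw [MulMemClass.coe_mul, mul_assoc]
  rw [h2, h2]
  exact h1

end bar

section brauer

variable {k D Λ Λ₁ J T : Type} [Field k] [CommGroup D] [Ring Λ] [Algebra k Λ] [Ring Λ₁]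
    [Algebra k Λ₁] {τ : MulAut D} {e : ℕ} {A : AX k D Λ τ e} {Q : Subgroup D}
    {A₁ : AX k (D ⧸ Q) Λ₁ 1 1} {π : A.CA Q →ₐ[k] Λ₁} [Fintype J] [DecidableEq J] [Fintype T]

/-- the commutant of `Q` in `M_J(Λ)` -/
def NS (A : AX k D Λ τ e) (Q : Subgroup D) (r : D →* Matrix J J k) :
    Subalgebra k (Matrix J J Λ) :=
  Subalgebra.centralizer k (Set.range fun x : Q => ten (r x) (A.u x))

theorem mem_NS {r : D →* Matrix J J k} {N : Matrix J J Λ} :
    N ∈ NS A Q r ↔ ∀ x ∈ Q, N * ten (r x) (A.u x) = ten (r x) (A.u x) * N := by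
  unfold NS
  rw [Subalgebra.mem_centralizer_iff]
  constructor
  · intro h x hx
    exact (h _ ⟨⟨x, hx⟩, rfl⟩).symm
  · rintro h _ ⟨x, rfl⟩
    exact (h x x.2).symm

variable {r : D →* Matrix J J k} {θ : Basis (Option T) k (Matrix J J k)}

theorem NS.comm {N : Matrix J J Λ} (hN : N ∈ NS A Q r) (x : Q) :
    N * ten ((r.comp Q.subtype) x) ((A.u.comp Q.subtype) x) =
      ten ((r.comp Q.subtype) x) ((A.u.comp Q.subtype) x) * N := mem_NS.1 hN x x.2

theorem co_mem (h : PF (r.comp Q.subtype) θ) {N : Matrix J J Λ} (hN : N ∈ NS A Q r) :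
    co θ none N ∈ A.CA Q := by
  rw [mem_CA']
  intro x hx
  exact h.co_none_comm (u := A.u.comp Q.subtype) (NS.comm hN) ⟨x, hx⟩

theorem inv_g (z : Λ) (hz : z ∈ A.CA Q) (q : D) (hq : q ∈ Q) (x : Q) (a : Λ) :
    A.t ((A.u.comp Q.subtype) x * a * (A.u.comp Q.subtype) x⁻¹ * (z * A.u q)) =
      A.t (a * (z * A.u q)) := by
  have h1 : A.u x⁻¹ * (z * A.u q) = z * A.u q * A.u x⁻¹ := by
    have hz' := mem_CA'.1 hz (x : D)⁻¹ (Q.inv_mem x.2)
    have hc : A.u (x : D)⁻¹ * A.u q = A.u q * A.u (x : D)⁻¹ := by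
      rw [← map_mul, ← map_mul, mul_comm]
    rw [← mul_assoc, hz', mul_assoc, hc, ← mul_assoc]
  change A.t (A.u x * a * A.u (x : D)⁻¹ * (z * A.u q)) = _
  have h2 : A.u x * a * A.u (x : D)⁻¹ * (z * A.u q) =
      A.u x * (a * (z * A.u q) * A.u (x : D)⁻¹) := by
    rw [mul_assoc (A.u x * a), h1]
    simp only [mul_assoc]
  rw [h2, A.tc, mul_assoc, ← map_mul, inv_mul_cancel, map_one, mul_one]

/-- the functional `a ↦ t (a z)` -/
noncomputable def gz (A : AX k D Λ τ e) (y : Λ) : Λ →ₗ[k] k :=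
  A.t ∘ₗ LinearMap.mulRight k y

@[simp] theorem gz_apply (y a : Λ) : gz A y a = A.t (a * y) := rfl

variable {p : ℕ} [Fact p.Prime] [CharP k p]

/-- `π (tr N) = |J| π (N₀)` in test form -/
theorem t_trace (hQ : IsPGroup p Q) (h : PF (r.comp Q.subtype) θ) {N : Matrix J J Λ}
    (hN : N ∈ NS A Q r) {z : Λ} (hz : z ∈ A.CA Q) {q : D} (hq : q ∈ Q) :
    A.t (N.trace * (z * A.u q)) = (Fintype.card J : k) * A.t (co θ none N * (z * A.u q)) := by
  have h1 := h.trace_gen hQ (u := A.u.comp Q.subtype) (NS.comm hN) (gz A (z * A.u q))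
    (fun x a => inv_g z hz q hq x a) 1 (fun x => by rw [mul_one, one_mul])
  rw [ten_one, mul_one, Matrix.trace_one] at h1
  exact h1

theorem t_trace_u (hQ : IsPGroup p Q) (h : PF (r.comp Q.subtype) θ) {N : Matrix J J Λ}
    (hN : N ∈ NS A Q r) {q : D} (hq : q ∈ Q) :
    A.t ((N * ten (r q) 1).trace * A.u q) = (Fintype.card J : k) * A.t (co θ none N * A.u q) := by
  have h1 := h.trace_gen hQ (u := A.u.comp Q.subtype) (NS.comm hN) (gz A (1 * A.u q))
    (fun x a => inv_g 1 (one_mem _) q hq x a) (r q) (fun x => by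
      change r x * r q = r q * r x
      rw [← map_mul, ← map_mul, mul_comm])
  rw [PF.trace_eq_card hQ (r.comp Q.subtype) ⟨q, hq⟩ |> fun h => (h : (r q).trace = _)] at h1
  simpa using h1

theorem t_mul (hQ : IsPGroup p Q) (h : PF (r.comp Q.subtype) θ) (hJ : (Fintype.card J : k) ≠ 0)
    {N N' : Matrix J J Λ} (hN : N ∈ NS A Q r) (hN' : N' ∈ NS A Q r) {z : Λ} (hz : z ∈ A.CA Q)
    {q : D} (hq : q ∈ Q) :
    A.t (co θ none (N * N') * (z * A.u q)) = A.t (co θ none N * co θ none N' * (z * A.u q)) := by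
  have h1 := h.trace_mul hQ (u := A.u.comp Q.subtype) (NS.comm hN) (NS.comm hN')
    (gz A (z * A.u q)) (fun x a => inv_g z hz q hq x a)
  have h2 := t_trace hQ h (mul_mem hN hN') hz hq
  rw [gz_apply, gz_apply] at h1
  rw [h2] at h1
  exact mul_left_cancel₀ hJ h1

theorem co_none_ten (h : PF (r.comp Q.subtype) θ) (a : Λ) :
    co θ none (ten (1 : Matrix J J k) a) = a := by
  classical
  rw [← h.one, co_ten, if_pos rfl]

/-- The Brauer map of `M_J(Λ)` at `Q`. -/
noncomputable def FF (hQ : IsPGroup p Q) (h : PF (r.comp Q.subtype) θ)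
    (hJ : (Fintype.card J : k) ≠ 0) (hb : Bar A Q A₁ π) : NS A Q r →ₐ[k] Λ₁ :=
  AlgHom.ofLinearMap
    { toFun := fun N => π ⟨co θ none N.1, co_mem h N.2⟩
      map_add' := fun N N' => by
        rw [← map_add]
        congr 1
        exact Subtype.ext (co_add θ none N.1 N'.1)
      map_smul' := fun c N => by
        rw [RingHom.id_apply, ← map_smul]
        congr 1
        exact Subtype.ext (co_smul θ none c N.1) }
    (by
      change π ⟨co θ none (1 : Matrix J J Λ), _⟩ = 1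
      rw [← map_one π]
      congr 1
      apply Subtype.ext
      change co θ none (1 : Matrix J J Λ) = 1
      rw [← ten_one (k := k), co_none_ten h])
    (fun N N' => by
      change π ⟨co θ none (N.1 * N'.1), _⟩ = π ⟨co θ none N.1, _⟩ * π ⟨co θ none N'.1, _⟩
      rw [← map_mul]
      refine bar_eq hb fun z hz q hq => ?_
      exact t_mul hQ h hJ N.2 N'.2 hz hq)

theorem FF_apply (hQ : IsPGroup p Q) (h : PF (r.comp Q.subtype) θ)
    (hJ : (Fintype.card J : k) ≠ 0) (hb : Bar A Q A₁ π) (N : NS A Q r) :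
    FF hQ h hJ hb N = π ⟨co θ none N.1, co_mem h N.2⟩ := rfl

end brauer

end Vale.P179.H554
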