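import Vale.Agent.P179.H554.Psi3

/-!
# Module PSI of ALLB, part 4: blocks of `M_{I × J}(Λ)`
-/

namespace Vale.P179.H554

open Matrix Module Vale.P179.Allb

section blk

variable {Λ I J : Type*} [Fintype I] [DecidableEq I] [Fintype J] [DecidableEq J]

/-- the block `(a, b)` -/
def blk (M : Matrix (I × J) (I × J) Λ) (a b : I) : Matrix J J Λ :=
  Matrix.of fun c c' => M (a, c) (b, c')

omit [Fintype I] [DecidableEq I] [Fintype J] [DecidableEq J] in
@[simp] theorem blk_apply (M : Matrix (I × J) (I × J) Λ) (a b : I) (c c' : J) :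
    blk M a b c c' = M (a, c) (b, c') := rfl

omit [Fintype I] [DecidableEq I] [Fintype J] [DecidableEq J] in
theorem blk_ext {M M' : Matrix (I × J) (I × J) Λ} (h : ∀ a b, blk M a b = blk M' a b) :
    M = M' := by
  ext ⟨a, c⟩ ⟨b, c'⟩
  exact congrFun (congrFun (h a b) c) c'

omit [Fintype I] [DecidableEq I] [Fintype J] [DecidableEq J] in
theorem blk_add [Ring Λ] (M M' : Matrix (I × J) (I × J) Λ) (a b : I) :
    blk (M + M') a b = blk M a b + blk M' a b := rfl

omit [DecidableEq I] [DecidableEq J] in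
theorem blk_mul [Ring Λ] (M M' : Matrix (I × J) (I × J) Λ) (a b : I) :
    blk (M * M') a b = ∑ x, blk M a x * blk M' x b := by
  ext c c'
  simp only [blk_apply, Matrix.mul_apply, Fintype.sum_prod_type, Matrix.sum_apply]

omit [Fintype I] [Fintype J] in
theorem blk_one [Ring Λ] (a b : I) : blk (1 : Matrix (I × J) (I × J) Λ) a b = if a = b then 1 else 0 := by
  ext c c'
  rw [blk_apply, Matrix.one_apply]
  by_cases h : a = b
  · subst h
    simp [Matrix.one_apply]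
  · simp [h]

/-- the matrix with given blocks -/
def unblk (f : I → I → Matrix J J Λ) : Matrix (I × J) (I × J) Λ :=
  Matrix.of fun z z' => f z.1 z'.1 z.2 z'.2

omit [Fintype I] [DecidableEq I] [Fintype J] [DecidableEq J] in
@[simp] theorem blk_unblk (f : I → I → Matrix J J Λ) (a b : I) : blk (unblk f) a b = f a b := rfl

end blk

section main

variable {k D Λ Λ₁ J T : Type} [Field k] [CommGroup D] [Ring Λ] [Algebra k Λ] [Ring Λ₁]
    [Algebra k Λ₁] {τ : MulAut D} {e : ℕ} {A : AX k D Λ τ e} {Q : Subgroup D}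
    {A₁ : AX k (D ⧸ Q) Λ₁ 1 1} {π : A.CA Q →ₐ[k] Λ₁} [Fintype J] [DecidableEq J] [Fintype T]
    {d : ℕ} {φ : Λ₁ →ₐ[k] Matrix (Fin d) (Fin d) k} {r : D →* Matrix J J k}
    {w : WD k D (Fin d × J) τ e} {B : PX k D (Matrix (Fin d × J) (Fin d × J) Λ)}
    {θ : Basis (Option T) k (Matrix J J k)}

omit [Fintype T] in
theorem blk_Bu (hw : ∀ x a b, w.r x a b =
      (φ (A₁.u (QuotientGroup.mk x⁻¹))) b.1 a.1 * r x a.2 b.2)
    (hB : MatX A w B) {q : D} (hq : q ∈ Q) (a b : Fin d) :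
    blk (B.u q) a b = if a = b then ten (r q) (A.u q) else 0 := by
  have h1 : (QuotientGroup.mk q⁻¹ : D ⧸ Q) = 1 :=
    (QuotientGroup.eq_one_iff _).2 (Q.inv_mem hq)
  ext c c'
  rw [blk_apply, hB.u, hw, h1, map_one, map_one]
  change ((1 : Matrix (Fin d) (Fin d) k) b a * r q c c') • A.u q = _
  by_cases h : a = b
  · subst h
    simp
  · simp [h, Matrix.one_apply, Ne.symm h]

omit [Fintype T] in
theorem mem_iff (hw : ∀ x a b, w.r x a b =
      (φ (A₁.u (QuotientGroup.mk x⁻¹))) b.1 a.1 * r x a.2 b.2)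
    (hB : MatX A w B) {M : Matrix (Fin d × J) (Fin d × J) Λ} :
    M ∈ B.CA Q ↔ ∀ a b, blk M a b ∈ NS A Q r := by
  have h1 : ∀ q ∈ Q, ∀ a b, blk (B.u q * M) a b = ten (r q) (A.u q) * blk M a b := by
    intro q hq a b
    rw [blk_mul]
    simp only [blk_Bu hw hB hq]
    simp
  have h2 : ∀ q ∈ Q, ∀ a b, blk (M * B.u q) a b = blk M a b * ten (r q) (A.u q) := by
    intro q hq a b
    rw [blk_mul]
    simp only [blk_Bu hw hB hq]
    simp
  rw [mem_CA']
  constructor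
  · intro h a b
    rw [mem_NS]
    intro q hq
    rw [← h2 q hq, ← h1 q hq, h q hq]
  · intro h q hq
    refine blk_ext fun a b => ?_
    rw [h1 q hq, h2 q hq, mem_NS.1 (h a b) q hq]

variable {p : ℕ} [Fact p.Prime] [CharP k p]

/-- The Brauer map of `M_{d × J}(Λ)` at `Q`, linear version. -/
noncomputable def FMl (hQ : IsPGroup p Q) (h : PF (r.comp Q.subtype) θ)
    (hJ : (Fintype.card J : k) ≠ 0) (hb : Bar A Q A₁ π)
    (hw : ∀ x a b, w.r x a b = (φ (A₁.u (QuotientGroup.mk x⁻¹))) b.1 a.1 * r x a.2 b.2)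
    (hB : MatX A w B) : B.CA Q →ₗ[k] Matrix (Fin d) (Fin d) Λ₁ where
  toFun := fun M => Matrix.of fun a b => FF hQ h hJ hb ⟨blk M.1 a b, (mem_iff hw hB).1 M.2 a b⟩
  map_add' := fun M M' => by
    ext a b
    simp only [Matrix.of_apply, Matrix.add_apply]
    rw [← map_add]
    rfl
  map_smul' := fun c M => by
    ext a b
    simp only [Matrix.of_apply, Matrix.smul_apply, RingHom.id_apply]
    rw [← map_smul]
    rfl

theorem FMl_apply (hQ : IsPGroup p Q) (h : PF (r.comp Q.subtype) θ)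
    (hJ : (Fintype.card J : k) ≠ 0) (hb : Bar A Q A₁ π)
    (hw : ∀ x a b, w.r x a b = (φ (A₁.u (QuotientGroup.mk x⁻¹))) b.1 a.1 * r x a.2 b.2)
    (hB : MatX A w B) (M : B.CA Q) (a b : Fin d) :
    FMl hQ h hJ hb hw hB M a b = FF hQ h hJ hb ⟨blk M.1 a b, (mem_iff hw hB).1 M.2 a b⟩ := rfl

theorem FMl_one (hQ : IsPGroup p Q) (h : PF (r.comp Q.subtype) θ)
    (hJ : (Fintype.card J : k) ≠ 0) (hb : Bar A Q A₁ π)
    (hw : ∀ x a b, w.r x a b = (φ (A₁.u (QuotientGroup.mk x⁻¹))) b.1 a.1 * r x a.2 b.2)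
    (hB : MatX A w B) : FMl hQ h hJ hb hw hB 1 = 1 := by
  refine Matrix.ext fun a b => ?_
  rw [FMl_apply, Matrix.one_apply]
  by_cases hab : a = b
  · rw [if_pos hab, ← map_one (FF hQ h hJ hb)]
    congr 1
    exact Subtype.ext ((blk_one a b).trans (if_pos hab))
  · rw [if_neg hab, ← map_zero (FF hQ h hJ hb)]
    congr 1
    exact Subtype.ext ((blk_one a b).trans (if_neg hab))

theorem FMl_mul (hQ : IsPGroup p Q) (h : PF (r.comp Q.subtype) θ)
    (hJ : (Fintype.card J : k) ≠ 0) (hb : Bar A Q A₁ π)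
    (hw : ∀ x a b, w.r x a b = (φ (A₁.u (QuotientGroup.mk x⁻¹))) b.1 a.1 * r x a.2 b.2)
    (hB : MatX A w B) (M M' : B.CA Q) :
    FMl hQ h hJ hb hw hB (M * M') = FMl hQ h hJ hb hw hB M * FMl hQ h hJ hb hw hB M' := by
  refine Matrix.ext fun a b => ?_
  rw [Matrix.mul_apply, FMl_apply]
  simp_rw [FMl_apply]
  simp_rw [← map_mul]
  rw [← map_sum]
  congr 1
  apply Subtype.ext
  rw [AddSubmonoidClass.coe_finsetSum]
  exact blk_mul M.1 M'.1 a b

/-- The Brauer map of `M_{d × J}(Λ)` at `Q`. -/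
noncomputable def FM (hQ : IsPGroup p Q) (h : PF (r.comp Q.subtype) θ)
    (hJ : (Fintype.card J : k) ≠ 0) (hb : Bar A Q A₁ π)
    (hw : ∀ x a b, w.r x a b = (φ (A₁.u (QuotientGroup.mk x⁻¹))) b.1 a.1 * r x a.2 b.2)
    (hB : MatX A w B) : B.CA Q →ₐ[k] Matrix (Fin d) (Fin d) Λ₁ :=
  AlgHom.ofLinearMap (FMl hQ h hJ hb hw hB) (FMl_one hQ h hJ hb hw hB)
    (FMl_mul hQ h hJ hb hw hB)

theorem FM_apply (hQ : IsPGroup p Q) (h : PF (r.comp Q.subtype) θ)
    (hJ : (Fintype.card J : k) ≠ 0) (hb : Bar A Q A₁ π)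
    (hw : ∀ x a b, w.r x a b = (φ (A₁.u (QuotientGroup.mk x⁻¹))) b.1 a.1 * r x a.2 b.2)
    (hB : MatX A w B) (M : B.CA Q) (a b : Fin d) :
    FM hQ h hJ hb hw hB M a b = FMl hQ h hJ hb hw hB M a b := rfl

theorem FM_surjective (hQ : IsPGroup p Q) (h : PF (r.comp Q.subtype) θ)
    (hJ : (Fintype.card J : k) ≠ 0) (hb : Bar A Q A₁ π)
    (hw : ∀ x a b, w.r x a b = (φ (A₁.u (QuotientGroup.mk x⁻¹))) b.1 a.1 * r x a.2 b.2)
    (hB : MatX A w B) : Function.Surjective (FM hQ h hJ hb hw hB) := by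
  intro Z
  choose f hf using fun a b => hb.surj (Z a b)
  have hmem : unblk (fun a b => ten (1 : Matrix J J k) (f a b : Λ)) ∈ B.CA Q := by
    rw [mem_iff hw hB]
    intro a b
    rw [blk_unblk, mem_NS]
    intro x hx
    rw [ten_mul, ten_mul, one_mul, mul_one, (mem_CA'.1 (f a b).2 x hx)]
  refine ⟨⟨_, hmem⟩, Matrix.ext fun a b => ?_⟩
  have h1 : (⟨co θ none (ten (1 : Matrix J J k) (f a b : Λ)),
      co_mem h ((mem_iff hw hB).1 hmem a b)⟩ : A.CA Q) = f a b :=
    Subtype.ext (co_none_ten h (f a b : Λ))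
  refine Eq.trans ?_ (hf a b)
  refine Eq.trans ?_ (congrArg π h1)
  rfl

omit [Fintype T] [Fact p.Prime] [CharP k p] in
theorem B_t (hB : MatX A w B) (M : Matrix (Fin d × J) (Fin d × J) Λ) :
    B.t M = ∑ a, A.t (blk M a a).trace := by
  rw [hB.t, Fintype.sum_prod_type]
  refine Finset.sum_congr rfl fun a _ => ?_
  rw [Matrix.trace, map_sum]
  rfl

/-- the form of the Brauer quotient -/
theorem FM_trace [Finite D] (hQ : IsPGroup p Q) (h : PF (r.comp Q.subtype) θ)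
    (hJ : (Fintype.card J : k) ≠ 0) (hb : Bar A Q A₁ π)
    (hw : ∀ x a b, w.r x a b = (φ (A₁.u (QuotientGroup.mk x⁻¹))) b.1 a.1 * r x a.2 b.2)
    (hB : MatX A w B) (M : B.CA Q) :
    ∑ᶠ q : Q, B.t (M * B.u q) =
      (Fintype.card J : k) * ∑ a, A₁.t (FM hQ h hJ hb hw hB M a a) := by
  classical
  let _ := Fintype.ofFinite Q
  have h1 : ∀ q : Q, B.t (M * B.u q) =
      ∑ a, (Fintype.card J : k) * A.t (co θ none (blk M.1 a a) * A.u q) := by
    intro q
    rw [B_t hB]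
    refine Finset.sum_congr rfl fun a _ => ?_
    have h2 : blk (M.1 * B.u q) a a =
        blk M.1 a a * ten (r q) (1 : Λ) * ten (1 : Matrix J J k) (A.u q) := by
      rw [blk_mul, mul_assoc, ten_mul, mul_one, one_mul]
      simp only [blk_Bu hw hB q.2]
      simp
    have h3 : (blk M.1 a a * ten (r q) (1 : Λ) * ten (1 : Matrix J J k) (A.u q)).trace =
        (blk M.1 a a * ten (r q) (1 : Λ)).trace * A.u q := by
      simp only [Matrix.trace, Matrix.diag_apply, Finset.sum_mul]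
      refine Finset.sum_congr rfl fun c _ => ?_
      rw [Matrix.mul_apply, Finset.sum_eq_single c]
      · simp
      · intro b _ hb
        simp [hb]
      · simp
    rw [h2, h3]
    exact t_trace_u hQ h ((mem_iff hw hB).1 M.2 a a) q.2
  rw [finsum_eq_sum_of_fintype, Finset.sum_congr rfl fun q _ => h1 q, Finset.sum_comm,
    Finset.mul_sum]
  refine Finset.sum_congr rfl fun a _ => ?_
  rw [FM_apply, FMl_apply, FF_apply, hb.map_t, finsum_eq_sum_of_fintype, Finset.mul_sum]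

end main

end Vale.P179.H554
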