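import Vale.Agent.P179.H554.Psi4

/-!
# Module PSI of ALLB, part 5: the action on `M_d(k)` and the theorem
-/

namespace Vale.P179.H554

open Matrix Module Vale.P179.Allb

section nil

variable {R : Type} [Ring R] {d : ℕ}

/-- an idempotent matrix with entries in a nil ideal vanishes -/
theorem idem_eq_zero [IsArtinianRing R] (I : Ideal R) (hI : ∀ x ∈ I, IsNilpotent x)
    {E : Matrix (Fin d) (Fin d) R} (hE : E * E = E) (hEI : ∀ a b, E a b ∈ I) : E = 0 := by
  have hIJ : I ≤ Ring.jacobson R := by
    intro x hx
    rw [← Ideal.jacobson_bot, Ideal.mem_jacobson_iff]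
    intro y
    have h1 : IsUnit (1 + y * x) := (hI _ (I.mul_mem_left y hx)).isUnit_one_add
    obtain ⟨z, hz⟩ := h1.exists_left_inv
    refine ⟨z, ?_⟩
    rw [Ideal.mem_bot, sub_eq_zero, ← hz, mul_add, mul_one, mul_assoc, add_comm]
  obtain ⟨n, hn⟩ := (IsSemiprimaryRing.isNilpotent : IsNilpotent (Ring.jacobson R))
  have h2 : ∀ m : ℕ, ∀ a b, E a b ∈ Ring.jacobson R ^ m := by
    intro m
    induction m with
    | zero =>
      intro a b
      rw [Submodule.pow_zero]
      simp
    | succ m ih =>
      intro a b
      rw [← hE, Submodule.pow_succ, Matrix.mul_apply]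
      exact Ideal.sum_mem _ fun x _ => Ideal.mul_mem_mul (ih a x) (hIJ (hEI x b))
  ext a b
  have h3 := h2 n a b
  rw [hn] at h3
  simpa using h3

end nil

section act

variable {k : Type} [Field k] {d : ℕ}

/-- `M_d(M_d(k))` acts on `M_d(k)` -/
noncomputable def actM : Matrix (Fin d) (Fin d) (Matrix (Fin d) (Fin d) k) →ₐ[k]
    Module.End k (Matrix (Fin d) (Fin d) k) :=
  AlgHom.ofLinearMap
    { toFun := fun Y =>
        { toFun := fun X => Matrix.of fun s a => ∑ a', (Y a a' * X) s a'
          map_add' := fun X X' => by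
            ext s a
            simp [Matrix.mul_add, Finset.sum_add_distrib]
          map_smul' := fun c X => by
            ext s a
            simp [Finset.mul_sum] }
      map_add' := fun Y Y' => by
        ext X s a
        simp [Matrix.add_mul, Finset.sum_add_distrib]
      map_smul' := fun c Y => by
        ext X s a
        simp [Finset.mul_sum] }
    (by
      refine LinearMap.ext fun X => Matrix.ext fun s a => ?_
      change ∑ a', ((1 : Matrix (Fin d) (Fin d) (Matrix (Fin d) (Fin d) k)) a a' * X) s a' = X s a
      rw [Finset.sum_eq_single a]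
      · rw [Matrix.one_apply_eq, one_mul]
      · intro b _ hb
        rw [Matrix.one_apply_ne (Ne.symm hb), zero_mul]
        rfl
      · simp)
    (fun Y Y' => by
      refine LinearMap.ext fun X => Matrix.ext fun s a => ?_
      change ∑ a', ((Y * Y') a a' * X) s a' =
        ∑ b, (Y a b * Matrix.of fun s a => ∑ a', (Y' a a' * X) s a') s b
      have h1 : ∀ a', ((Y * Y') a a' * X) s a' = ∑ b, (Y a b * (Y' b a' * X)) s a' := by
        intro a'
        have h0 : (Y * Y') a a' = ∑ b, Y a b * Y' b a' := Matrix.mul_apply
        rw [h0, Finset.sum_mul, Matrix.sum_apply]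
        exact Finset.sum_congr rfl fun b _ => by rw [Matrix.mul_assoc]
      rw [Finset.sum_congr rfl fun a' _ => h1 a', Finset.sum_comm]
      refine Finset.sum_congr rfl fun b _ => ?_
      rw [Matrix.mul_apply]
      simp only [Matrix.of_apply, Finset.mul_sum]
      rw [Finset.sum_comm]
      refine Finset.sum_congr rfl fun a' _ => ?_
      rw [Matrix.mul_apply])

theorem actM_apply (Y : Matrix (Fin d) (Fin d) (Matrix (Fin d) (Fin d) k))
    (X : Matrix (Fin d) (Fin d) k) (s a : Fin d) :
    actM Y X s a = ∑ a', (Y a a' * X) s a' := rfl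

theorem actM_single (Y : Matrix (Fin d) (Fin d) (Matrix (Fin d) (Fin d) k)) (s' a' s a : Fin d) :
    actM Y (Matrix.single s' a' 1) s a = Y a a' s s' := by
  rw [actM_apply, Finset.sum_eq_single a']
  · simp
  · intro b _ hb
    rw [Matrix.mul_single_apply_of_ne]
    exact hb
  · simp

theorem actM_injective : Function.Injective (actM (k := k) (d := d)) := by
  intro Y Y' h
  ext a a' s s'
  rw [← actM_single Y, ← actM_single Y', h]

theorem actM_surjective : Function.Surjective (actM (k := k) (d := d)) := by
  intro y
  refine ⟨Matrix.of fun a a' => Matrix.of fun s s' => y (Matrix.single s' a' 1) s a, ?_⟩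
  refine LinearMap.ext fun X => Matrix.ext fun s a => ?_
  rw [actM_apply]
  conv_rhs => rw [Matrix.matrix_eq_sum_single X]
  simp only [map_sum, Matrix.sum_apply, Matrix.mul_apply, Matrix.of_apply]
  rw [Finset.sum_comm]
  refine Finset.sum_congr rfl fun s' _ => Finset.sum_congr rfl fun a' _ => ?_
  have h1 : Matrix.single s' a' (X s' a') = X s' a' • Matrix.single s' a' (1 : k) := by
    rw [Matrix.smul_single, smul_eq_mul, mul_one]
  rw [h1, map_smul, Matrix.smul_apply, smul_eq_mul, mul_comm]

end act

end Vale.P179.H554
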