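import Vale.Agent.P179.H554.Psi5

/-!
# Module PSI of ALLB, part 6: the Brauer quotient of the corner
-/

namespace Vale.P179.H554

open Matrix Module Vale.P179.Allb

section tr1

variable {k Λ₁ : Type} [Field k] [Ring Λ₁] [Algebra k Λ₁] {d : ℕ}

/-- the form `t ⊗ trace` -/
noncomputable def tr1 (t : Λ₁ →ₗ[k] k) (X : Matrix (Fin d) (Fin d) Λ₁) : k := ∑ a, t (X a a)

theorem tr1_comm {t : Λ₁ →ₗ[k] k} (tc : ∀ x y, t (x * y) = t (y * x))
    (X Y : Matrix (Fin d) (Fin d) Λ₁) : tr1 t (X * Y) = tr1 t (Y * X) := by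
  unfold tr1
  simp only [Matrix.mul_apply, map_sum]
  rw [Finset.sum_comm]
  exact Finset.sum_congr rfl fun a _ => Finset.sum_congr rfl fun b _ => tc _ _

theorem tr1_nd {t : Λ₁ →ₗ[k] k} (nd : ∀ x, (∀ y, t (x * y) = 0) → x = 0)
    {X : Matrix (Fin d) (Fin d) Λ₁} (h : ∀ Y, tr1 t (X * Y) = 0) : X = 0 := by
  ext a b
  refine nd _ fun y => ?_
  have h1 := h (Matrix.single b a y)
  unfold tr1 at h1
  rw [Finset.sum_eq_single a] at h1
  · simpa using h1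
  · intro c _ hc
    rw [Matrix.mul_single_apply_of_ne _ _ _ _ _ hc, map_zero]
  · simp

end tr1

section uu

variable {k D Λ Λ₁ J T : Type} [Field k] [CommGroup D] [Ring Λ] [Algebra k Λ] [Ring Λ₁]
    [Algebra k Λ₁] {τ : MulAut D} {e : ℕ} {A : AX k D Λ τ e} {Q : Subgroup D}
    {A₁ : AX k (D ⧸ Q) Λ₁ 1 1} {π : A.CA Q →ₐ[k] Λ₁} [Fintype J] [DecidableEq J] [Fintype T]
    {d : ℕ} {φ : Λ₁ →ₐ[k] Matrix (Fin d) (Fin d) k} {r : D →* Matrix J J k}
    {w : WD k D (Fin d × J) τ e} {B : PX k D (Matrix (Fin d × J) (Fin d × J) Λ)}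
    {θ : Basis (Option T) k (Matrix J J k)} {p : ℕ} [Fact p.Prime] [CharP k p]

theorem u_mem (A : PX k D Λ) (x : D) : A.u x ∈ A.CA Q := by
  rw [mem_CA']
  intro y _
  rw [← map_mul, ← map_mul, mul_comm]

omit [Fintype T] in
theorem ten_mem (x : D) : ten (r x) (A.u x) ∈ NS A Q r := by
  rw [mem_NS]
  intro y _
  rw [ten_mul, ten_mul, ← map_mul, ← map_mul, ← map_mul, ← map_mul, mul_comm x y]

theorem FF_u (hD : IsPGroup p D) (hQ : IsPGroup p Q) (h : PF (r.comp Q.subtype) θ)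
    (hJ : (Fintype.card J : k) ≠ 0) (hb : Bar A Q A₁ π) (x : D) :
    FF hQ h hJ hb ⟨ten (r x) (A.u x), ten_mem x⟩ = A₁.u (QuotientGroup.mk x) := by
  rw [FF_apply, ← hb.map_u x (u_mem A.toPX x)]
  refine bar_eq hb fun z hz q hq => ?_
  have h1 := t_trace hQ h (ten_mem (A := A) (Q := Q) (r := r) x) hz hq
  rw [trace_ten, PF.trace_eq_card hD r x, smul_mul_assoc, map_smul, smul_eq_mul] at h1
  exact (mul_left_cancel₀ hJ h1).symm

theorem FM_u (hD : IsPGroup p D) (hQ : IsPGroup p Q) (h : PF (r.comp Q.subtype) θ)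
    (hJ : (Fintype.card J : k) ≠ 0) (hb : Bar A Q A₁ π)
    (hw : ∀ x a b, w.r x a b = (φ (A₁.u (QuotientGroup.mk x⁻¹))) b.1 a.1 * r x a.2 b.2)
    (hB : MatX A w B) (x : D) (a b : Fin d) :
    FM hQ h hJ hb hw hB ⟨B.u x, u_mem B x⟩ a b =
      (φ (A₁.u (QuotientGroup.mk x⁻¹))) b a • A₁.u (QuotientGroup.mk x) := by
  rw [FM_apply, FMl_apply, ← FF_u hD hQ h hJ hb x, ← map_smul]
  congr 1
  apply Subtype.ext
  ext c c'
  change B.u x (a, c) (b, c') = ((φ (A₁.u (QuotientGroup.mk x⁻¹))) b a • ten (r x) (A.u x)) c c'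
  rw [hB.u, hw, Matrix.smul_apply, ten_apply, smul_smul]

/-- the action of the commutant of `Q` on `M_d(k)` -/
noncomputable def Ps (hQ : IsPGroup p Q) (h : PF (r.comp Q.subtype) θ)
    (hJ : (Fintype.card J : k) ≠ 0) (hb : Bar A Q A₁ π)
    (hw : ∀ x a b, w.r x a b = (φ (A₁.u (QuotientGroup.mk x⁻¹))) b.1 a.1 * r x a.2 b.2)
    (hB : MatX A w B) : B.CA Q →ₐ[k] Module.End k (Matrix (Fin d) (Fin d) k) :=
  actM.comp (φ.mapMatrix.comp (FM hQ h hJ hb hw hB))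

theorem Ps_apply (hQ : IsPGroup p Q) (h : PF (r.comp Q.subtype) θ)
    (hJ : (Fintype.card J : k) ≠ 0) (hb : Bar A Q A₁ π)
    (hw : ∀ x a b, w.r x a b = (φ (A₁.u (QuotientGroup.mk x⁻¹))) b.1 a.1 * r x a.2 b.2)
    (hB : MatX A w B) (M : B.CA Q) (X : Matrix (Fin d) (Fin d) k) (s a : Fin d) :
    Ps hQ h hJ hb hw hB M X s a = ∑ a', (φ (FM hQ h hJ hb hw hB M a a') * X) s a' := rfl

theorem Ps_u (hD : IsPGroup p D) (hQ : IsPGroup p Q) (h : PF (r.comp Q.subtype) θ)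
    (hJ : (Fintype.card J : k) ≠ 0) (hb : Bar A Q A₁ π)
    (hw : ∀ x a b, w.r x a b = (φ (A₁.u (QuotientGroup.mk x⁻¹))) b.1 a.1 * r x a.2 b.2)
    (hB : MatX A w B) (x : D) (X : Matrix (Fin d) (Fin d) k) :
    Ps hQ h hJ hb hw hB ⟨B.u x, u_mem B x⟩ X =
      φ (A₁.u (QuotientGroup.mk x)) * X * φ (A₁.u (QuotientGroup.mk x⁻¹)) := by
  ext s a
  rw [Ps_apply, Matrix.mul_apply]
  refine Finset.sum_congr rfl fun a' _ => ?_
  rw [FM_u hD hQ h hJ hb hw hB, map_smul, smul_mul_assoc, Matrix.smul_apply, smul_eq_mul, mul_comm]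

theorem Ps_surjective (hφ : Function.Surjective φ) (hQ : IsPGroup p Q)
    (h : PF (r.comp Q.subtype) θ) (hJ : (Fintype.card J : k) ≠ 0) (hb : Bar A Q A₁ π)
    (hw : ∀ x a b, w.r x a b = (φ (A₁.u (QuotientGroup.mk x⁻¹))) b.1 a.1 * r x a.2 b.2)
    (hB : MatX A w B) : Function.Surjective (Ps hQ h hJ hb hw hB) := by
  have h1 : Function.Surjective (φ.mapMatrix (m := Fin d)) := by
    intro Y
    choose f hf using fun a b => hφ (Y a b)
    exact ⟨Matrix.of f, Matrix.ext fun a b => hf a b⟩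
  exact actM_surjective.comp (h1.comp (FM_surjective hQ h hJ hb hw hB))

end uu

section corner

variable {k D R Λ' : Type} [Field k] [CommGroup D] [Ring R] [Algebra k R] [Ring Λ']
  [Algebra k Λ'] {B : PX k D R} {A' : PX k D Λ'} {j : R} {v : Λ' →ₗ[k] R} {Q : Subgroup D}

theorem j_v (hv : Cor j v) (a : Λ') : j * v a = v a := by rw [← hv.one, ← hv.mul, one_mul]

theorem v_j (hv : Cor j v) (a : Λ') : v a * j = v a := by rw [← hv.one, ← hv.mul, mul_one]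

theorem u_v (hv : Cor j v) (hvu : ∀ x, v (A'.u x) = B.u x * j) (x : D) (a : Λ') :
    v (A'.u x * a) = B.u x * v a := by
  rw [hv.mul, hvu, mul_assoc, j_v hv]

theorem v_u (hju : ∀ x, B.u x * j = j * B.u x) (hv : Cor j v)
    (hvu : ∀ x, v (A'.u x) = B.u x * j) (x : D) (a : Λ') :
    v (a * A'.u x) = v a * B.u x := by
  rw [hv.mul, hvu, hju, ← mul_assoc, v_j hv]

theorem v_mem_iff (hju : ∀ x, B.u x * j = j * B.u x) (hv : Cor j v)
    (hvu : ∀ x, v (A'.u x) = B.u x * j) (a : Λ') : v a ∈ B.CA Q ↔ a ∈ A'.CA Q := by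
  rw [mem_CA', mem_CA']
  constructor
  · intro h x hx
    apply hv.inj
    rw [u_v hv hvu, v_u hju hv hvu, h x hx]
  · intro h x hx
    rw [← u_v hv hvu, ← v_u hju hv hvu, h x hx]

end corner

end Vale.P179.H554
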