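import Vale.Agent.P179.H633.S1

/-!
# REL: the Hasse–Schmidt derivation relative to `D₂`, part 1: Newton iteration

The iteration uses only the separability element, not the Higman form.
-/

namespace Vale.P179.H554.RS

open Module Vale.P179.H175 Vale.P179.Sgn PowerSeries Vale.P179.H633
open scoped TensorProduct

/-- a separability element of `B` over the image of `A` -/
structure SepD (k A B : Type) [Field k] [Ring A] [Algebra k A] [Ring B] [Algebra k B] where
  /-- the algebra map -/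
  ι : A →ₐ[k] B
  /-- number of terms -/
  m : ℕ
  /-- left half -/
  s : Fin m → B
  /-- right half -/
  t : Fin m → B
  st : ∑ i, s i * t i = 1
  sep : ∀ b : B, (∑ i, (b * s i) ⊗ₜ[k] t i) - (∑ i, s i ⊗ₜ[k] (t i * b)) ∈
    Submodule.span k {z : B ⊗[k] B | ∃ (x y : B) (h : A), z = (x * ι h) ⊗ₜ[k] y - x ⊗ₜ[k] (ι h * y)}

section

variable {k A B : Type} [Field k] [Ring A] [Algebra k A] [Ring B] [Algebra k B]
  (D : SepD k A B)

theorem sep_apply {M : Type*} [AddCommGroup M] [Module k M] (β : B →ₗ[k] B →ₗ[k] M)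
    (hβ : ∀ (x y : B) (h : A), β (x * D.ι h) y = β x (D.ι h * y)) (b : B) :
    ∑ i, β (b * D.s i) (D.t i) = ∑ i, β (D.s i) (D.t i * b) := by
  have h1 := D.sep b
  have h2 : Submodule.span k {z : B ⊗[k] B | ∃ (x y : B) (h : A),
      z = (x * D.ι h) ⊗ₜ[k] y - x ⊗ₜ[k] (D.ι h * y)} ≤ LinearMap.ker (TensorProduct.lift β) := by
    rw [Submodule.span_le]
    rintro z ⟨x, y, h, rfl⟩
    change TensorProduct.lift β _ = 0
    rw [map_sub, TensorProduct.lift.tmul, TensorProduct.lift.tmul, hβ, sub_self]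
  have h3 := h2 h1
  rw [LinearMap.mem_ker, map_sub, map_sum, map_sum, sub_eq_zero] at h3
  simpa only [TensorProduct.lift.tmul] using h3

/-! ## Newton iteration -/

/-- `φ` is a `σ`-twisted bimodule map, multiplicative modulo `X^n` -/
structure Good (σ : A →ₐ[k] B⟦X⟧) (n : ℕ) (φ : B →ₗ[k] B⟦X⟧) : Prop where
  left : ∀ a b, φ (D.ι a * b) = σ a * φ b
  right : ∀ b a, φ (b * D.ι a) = φ b * σ a
  one : φ 1 = 1
  id : ∀ b, coeff 0 (φ b) = b
  mul : ∀ b b', Ord n (φ (b * b') - φ b * φ b')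

variable {D}

theorem step {σ : A →ₐ[k] B⟦X⟧} {n : ℕ} (hn : 1 ≤ n) {φ : B →ₗ[k] B⟦X⟧} (h : Good D σ n φ) :
    ∃ φ' : B →ₗ[k] B⟦X⟧, Good D σ (n + 1) φ' ∧ ∀ b, Ord n (φ' b - φ b) := by
  classical
  -- the bilinear maps
  let μ : B⟦X⟧ →ₗ[k] B⟦X⟧ →ₗ[k] B⟦X⟧ := LinearMap.mul k B⟦X⟧
  let c : B →ₗ[k] B →ₗ[k] B⟦X⟧ := LinearMap.mk₂ k (fun x y => φ (x * y) - φ x * φ y)
    (fun x x' y => by simp only [add_mul, map_add]; abel)
    (fun r x y => by simp only [smul_mul_assoc, map_smul, smul_sub])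
    (fun x y y' => by simp only [mul_add, map_add]; abel)
    (fun r x y => by simp only [mul_smul_comm, map_smul, smul_sub])
  have hc : ∀ x y, c x y = φ (x * y) - φ x * φ y := fun x y => rfl
  have hcO : ∀ x y, Ord n (c x y) := fun x y => h.mul x y
  have hcbal : ∀ (x y : B) (a : A), c (x * D.ι a) y = c x (D.ι a * y) := by
    intro x y a
    rw [hc, hc, h.right, h.left, mul_assoc, mul_assoc]
  have hcr : ∀ (x y : B) (a : A), c x (y * D.ι a) = c x y * σ a := by
    intro x y a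
    rw [hc, hc, ← mul_assoc, h.right, h.right, sub_mul, mul_assoc (φ x)]
  have hcoc : ∀ x y z, c (x * y) z + c x y * φ z = c x (y * z) + φ x * c y z := by
    intro x y z
    simp only [hc, mul_assoc x y z]
    noncomm_ring
  -- e
  let e : B → B⟦X⟧ := fun b => ∑ i, c (b * D.s i) (D.t i)
  have heO : ∀ b, Ord n (e b) := fun b => Ord.sum fun i _ => hcO _ _
  let φ1 : B →ₗ[k] B⟦X⟧ :=
    ∑ i, (LinearMap.mulRight k (φ (D.t i))) ∘ₗ φ ∘ₗ LinearMap.mulRight k (D.s i)
  have hφ1 : ∀ b, φ1 b = ∑ i, φ (b * D.s i) * φ (D.t i) := by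
    intro b
    simp [φ1, LinearMap.sum_apply]
  have hφ1e : ∀ b, φ1 b = φ b - e b := by
    intro b
    have h1 : e b = φ b - φ1 b := by
      simp only [e, hc, hφ1, Finset.sum_sub_distrib]
      congr 1
      rw [← map_sum]
      congr 1
      simp only [mul_assoc]
      rw [← Finset.mul_sum, D.st, mul_one]
    rw [h1]; abel
  have hφ1l : ∀ a b, φ1 (D.ι a * b) = σ a * φ1 b := by
    intro a b
    rw [hφ1, hφ1, Finset.mul_sum]
    refine Finset.sum_congr rfl fun i _ => ?_
    rw [mul_assoc, h.left, mul_assoc]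
  have hφ1r : ∀ b a, φ1 (b * D.ι a) = φ1 b * σ a := by
    intro b a
    let β : B →ₗ[k] B →ₗ[k] B⟦X⟧ := (μ.compl₂ φ) ∘ₗ φ ∘ₗ LinearMap.mulLeft k b
    have hβ : ∀ x y, β x y = φ (b * x) * φ y := fun x y => rfl
    have h1 := sep_apply D β (fun x y a => by
      rw [hβ, hβ, ← mul_assoc, h.right, h.left, mul_assoc]) (D.ι a)
    simp only [hβ] at h1
    rw [hφ1, hφ1, Finset.sum_mul]
    have h2 : ∀ i, φ (b * D.ι a * D.s i) * φ (D.t i) = φ (b * (D.ι a * D.s i)) * φ (D.t i) :=
      fun i => by rw [mul_assoc]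
    simp only [h2]
    rw [h1]
    refine Finset.sum_congr rfl fun i _ => ?_
    rw [h.right, mul_assoc]
  set κ : B⟦X⟧ := e 1 with hκ
  have hκO : Ord n κ := heO 1
  set u : B⟦X⟧ := φ1 1 with hu
  have huκ : u = 1 - κ := by rw [hu, hφ1e, h.one]
  have huσ : ∀ a, σ a * u = u * σ a := by
    intro a
    rw [hu, ← hφ1l, ← hφ1r, mul_one, one_mul]
  have hu0 : constantCoeff u = ((1 : Bˣ) : B) := by
    rw [← coeff_zero_eq_constantCoeff_apply, huκ, map_sub, hκO 0 (by omega), sub_zero,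
      coeff_zero_eq_constantCoeff_apply, map_one]
    rfl
  set v : B⟦X⟧ := invOfUnit u 1 with hv
  have huv : u * v = 1 := mul_invOfUnit u 1 hu0
  have hvu : v * u = 1 := invOfUnit_mul u 1 hu0
  have hvσ : ∀ a, σ a * v = v * σ a := by
    intro a
    calc σ a * v = v * u * (σ a * v) := by rw [hvu, one_mul]
      _ = v * (u * σ a) * v := by noncomm_ring
      _ = v * (σ a * u) * v := by rw [huσ]
      _ = v * σ a * (u * v) := by noncomm_ring
      _ = v * σ a := by rw [huv, mul_one]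
  have hvκ : v = 1 + κ * v := by
    have : (1 - κ) * v = 1 := by rw [← huκ]; exact huv
    rw [sub_mul, one_mul, sub_eq_iff_eq_add] at this
    exact this
  let φ2 : B →ₗ[k] B⟦X⟧ := LinearMap.mulRight k v ∘ₗ φ1
  have hφ2 : ∀ b, φ2 b = φ1 b * v := fun b => rfl
  -- the error terms
  have hclose : ∀ b, Ord n (φ2 b - φ b) := by
    intro b
    have : φ2 b - φ b = φ b * (κ * v) - e b * v := by
      rw [hφ2, hφ1e]
      conv_lhs => rw [sub_mul]
      nth_rewrite 1 [hvκ]
      noncomm_ring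
    rw [this]
    exact ((hκO.mul_right).mul_left).sub (heO b).mul_right
  -- identities for c
  have hid1 : ∀ b, ∑ i, c b (D.s i) * φ (D.t i) = φ b * κ - e b := by
    intro b
    have h1 : ∑ i, (c (b * D.s i) (D.t i) + c b (D.s i) * φ (D.t i)) =
        ∑ i, (c b (D.s i * D.t i) + φ b * c (D.s i) (D.t i)) :=
      Finset.sum_congr rfl fun i _ => hcoc _ _ _
    rw [Finset.sum_add_distrib, Finset.sum_add_distrib, ← map_sum, D.st, ← Finset.mul_sum] at h1
    have h2 : c b 1 = 0 := by rw [hc, mul_one, h.one, mul_one, sub_self]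
    have h3 : κ = ∑ i, c (D.s i) (D.t i) := by simp only [hκ, e, one_mul]
    rw [h2, zero_add, ← h3] at h1
    rw [← h1]
    simp only [e]
    abel
  have hid2 : ∀ b b', c b b' - e (b * b') = ∑ i, c b (D.s i) * φ (D.t i * b') - φ b * e b' := by
    intro b b'
    have h1 : ∑ i, (c (b * (b' * D.s i)) (D.t i) + c b (b' * D.s i) * φ (D.t i)) =
        ∑ i, (c b (b' * D.s i * D.t i) + φ b * c (b' * D.s i) (D.t i)) :=
      Finset.sum_congr rfl fun i _ => hcoc _ _ _
    rw [Finset.sum_add_distrib, Finset.sum_add_distrib, ← Finset.mul_sum, ← map_sum] at h1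
    have h2 : ∑ i, b' * D.s i * D.t i = b' := by
      simp only [mul_assoc]
      rw [← Finset.mul_sum, D.st, mul_one]
    have h3 : ∑ i, c (b * (b' * D.s i)) (D.t i) = e (b * b') := by
      simp only [e, mul_assoc]
    let β : B →ₗ[k] B →ₗ[k] B⟦X⟧ := (μ.compl₂ φ) ∘ₗ (c b)
    have hβ : ∀ x y, β x y = c b x * φ y := fun x y => rfl
    have h4 := sep_apply D β (fun x y a => by
      rw [hβ, hβ, hcr, h.left, mul_assoc]) b'
    simp only [hβ] at h4
    rw [h2, h3, h4] at h1
    have h5 : ∑ i, c (b' * D.s i) (D.t i) = e b' := rfl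
    rw [h5] at h1
    have h6 : c b b' = e (b * b') + ∑ i, c b (D.s i) * φ (D.t i * b') - φ b * e b' := by
      rw [h1]; abel
    rw [h6]; abel
  have hid3 : ∀ b b', ∑ i, c b (D.s i) * φ (D.t i * b') =
      (φ b * κ - e b) * φ b' + ∑ i, c b (D.s i) * c (D.t i) b' := by
    intro b b'
    rw [← hid1, Finset.sum_mul, ← Finset.sum_add_distrib]
    refine Finset.sum_congr rfl fun i _ => ?_
    rw [hc (D.t i) b']
    noncomm_ring
  have hE : ∀ b b', Ord (n + 1) (φ1 (b * b') - φ1 b * v * φ1 b') := by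
    intro b b'
    set Q : B⟦X⟧ := ∑ i, c b (D.s i) * c (D.t i) b' with hQ
    have hQO : Ord (n + n) Q := Ord.sum fun i _ => (hcO _ _).mul (hcO _ _)
    have h1 : φ1 (b * b') = φ b * φ b' + ((φ b * κ - e b) * φ b' + Q - φ b * e b') := by
      rw [hφ1e, ← hid3, ← hid2, hc]
      abel
    have h2 : v = 1 + κ + κ * (κ * v) := by
      conv_lhs => rw [hvκ, hvκ]
      noncomm_ring
    have h3 : φ1 (b * b') - φ1 b * v * φ1 b' =
        Q - e b * e b' + φ b * (κ * e b') + e b * (κ * φ b') - e b * (κ * e b')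
          - (φ b - e b) * (κ * (κ * v)) * (φ b' - e b') := by
      rw [h1, hφ1e b, hφ1e b']
      nth_rewrite 1 [h2]
      noncomm_ring
    rw [h3]
    have hle : n + 1 ≤ n + n := by omega
    have t1 : Ord (n + n) (e b * e b') := (heO b).mul (heO b')
    have t2 : Ord (n + n) (φ b * (κ * e b')) := (hκO.mul (heO b')).mul_left
    have t3 : Ord (n + n) (e b * (κ * φ b')) := (heO b).mul (hκO.mul_right)
    have t4 : Ord (n + n) (e b * (κ * e b')) := (heO b).mul (hκO.mul_right)
    have t5 : Ord (n + n) ((φ b - e b) * (κ * (κ * v)) * (φ b' - e b')) :=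
      ((hκO.mul (hκO.mul_right)).mul_left).mul_right
    exact (((((hQO.sub t1).add t2).add t3).sub t4).sub t5).mono hle
  refine ⟨φ2, ⟨?_, ?_, ?_, ?_, ?_⟩, hclose⟩
  · intro a b
    rw [hφ2, hφ2, hφ1l, mul_assoc]
  · intro b a
    rw [hφ2, hφ2, hφ1r, mul_assoc, hvσ, mul_assoc]
  · rw [hφ2, ← hu, huv]
  · intro b
    have := hclose b 0 (by omega)
    rw [map_sub, h.id, sub_eq_zero] at this
    exact this
  · intro b b'
    have : φ2 (b * b') - φ2 b * φ2 b' = (φ1 (b * b') - φ1 b * v * φ1 b') * v := by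
      rw [hφ2, hφ2, hφ2]
      noncomm_ring
    rw [this]
    exact (hE b b').mul_right


/-- From a starting map to the Hasse–Schmidt derivation. -/
theorem hsd_of_start {W : ℚ → Submodule k A} {σ : A →ₐ[k] B⟦X⟧}
    (hσ : ∀ (w n : ℕ) (h : A), h ∈ W w → coeff n (σ h) = (Nat.choose w n : k) • D.ι h)
    {φ0 : B →ₗ[k] B⟦X⟧} (hφ0 : Good D σ 1 φ0) : Nonempty (HSD k D.ι W) := by
  classical
  -- the sequence
  let F : ℕ → {n : ℕ × (B →ₗ[k] B⟦X⟧) // 1 ≤ n.1 ∧ Good D σ n.1 n.2} := fun n => Nat.rec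
    ⟨(1, φ0), le_rfl, hφ0⟩
    (fun _ s => ⟨(s.1.1 + 1, (step s.2.1 s.2.2).choose), by have := s.2.1; show 1 ≤ s.1.1 + 1; omega,
      (step s.2.1 s.2.2).choose_spec.1⟩) n
  have hF1 : ∀ n, (F n).1.1 = n + 1 := by
    intro n
    induction n with
    | zero => rfl
    | succ n ih =>
      change (F n).1.1 + 1 = _
      rw [ih]
  have hFstep : ∀ n b, Ord (n + 1) ((F (n + 1)).1.2 b - (F n).1.2 b) := by
    intro n b
    have := (step (F n).2.1 (F n).2.2).choose_spec.2 b
    intro m hm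
    exact this m (by rw [hF1 n]; exact hm)
  have hFgood : ∀ n, Good D σ (n + 1) (F n).1.2 := by
    intro n
    have := (F n).2.2
    rwa [hF1 n] at this
  have hstab : ∀ m n, m ≤ n → ∀ b, coeff m ((F n).1.2 b) = coeff m ((F m).1.2 b) := by
    intro m n hmn b
    induction n, hmn using Nat.le_induction with
    | base => rfl
    | succ n hmn ih =>
      have := hFstep n b m (by omega)
      rw [map_sub, sub_eq_zero] at this
      rw [this, ih]
  refine ⟨{
    g := fun n =>
      { toFun := fun b => coeff n ((F n).1.2 b)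
        map_add' := fun a b => by rw [map_add, map_add]
        map_smul' := fun r b => by rw [map_smul, PowerSeries.coeff_smul, RingHom.id_apply] }
    zero := ?_
    mul := ?_
    ext := ?_ }⟩
  · apply LinearMap.ext
    intro b
    exact (hFgood 0).id b
  · intro n a b
    have h1 := (hFgood n).mul a b n (by omega)
    rw [map_sub, sub_eq_zero] at h1
    change coeff n ((F n).1.2 (a * b)) = ∑ i ∈ Finset.range (n + 1),
      coeff i ((F i).1.2 a) * coeff (n - i) ((F (n - i)).1.2 b)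
    rw [h1, coeff_mul, Finset.Nat.sum_antidiagonal_eq_sum_range_succ_mk]
    refine Finset.sum_congr rfl fun i hi => ?_
    have hi' : i ≤ n := by
      have := Finset.mem_range.1 hi
      omega
    rw [hstab i n hi' a, hstab (n - i) n (by omega) b]
  · intro w n h hh
    change coeff n ((F n).1.2 (D.ι h)) = _
    have h1 := (hFgood n).left h 1
    rw [mul_one, (hFgood n).one, mul_one] at h1
    rw [h1, hσ w n h hh]

end

end Vale.P179.H554.RS
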