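import Vale.Agent.P179.H554.RS1

/-!
# REL: the Hasse–Schmidt derivation relative to `D₂`, part 2: the starting map
-/

namespace Vale.P179.H554.RS

open Module Vale.P179.H175 Vale.P179.Sgn PowerSeries Vale.P179.H633 Vale.P179.H445
open scoped TensorProduct

section

variable {k A B Γ : Type} [Field k] [Ring A] [Algebra k A] [Ring B] [Algebra k B]
  [Group Γ] (D : SepD k A B) {γ : Γ →* A} {D1 C1 : Subgroup Γ} [Fintype D1]
  {ρ : B →ₗ[k] A} {θ : B →ₗ[k] B}

/-- the starting map, relative to the subgroup `C1` of degree `0` -/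
theorem start_rel (hspan : Submodule.span k (Set.range γ) = ⊤)
    (R : Rel (γ.comp D1.subtype) D.ι ρ θ)
    (hθl : ∀ g ∈ C1, ∀ b, θ (D.ι (γ g) * b) = D.ι (γ g) * θ b)
    (hθr : ∀ g ∈ C1, ∀ b, θ (b * D.ι (γ g)) = θ b * D.ι (γ g))
    (hn : D1.Normal) (hgen : ∀ g : Γ, ∃ x ∈ D1, ∃ c ∈ C1, g = x * c)
    (σ : A →ₐ[k] B⟦X⟧) (hσ : ∀ a, coeff 0 (σ a) = D.ι a)
    (hσC : ∀ g ∈ C1, σ (γ g) = C (D.ι (γ g))) :
    ∃ φ : B →ₗ[k] B⟦X⟧, Good D σ 1 φ := by
  classical
  let Cl : B →ₗ[k] B⟦X⟧ :=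
    { toFun := fun b => C b
      map_add' := fun a b => map_add _ a b
      map_smul' := fun r b => by
        ext n
        rw [RingHom.id_apply, PowerSeries.coeff_smul, coeff_C, coeff_C]
        split_ifs <;> simp }
  let π : B →ₗ[k] B := LinearMap.id - D.ι.toLinearMap ∘ₗ ρ
  have hπ : ∀ b, π b = b - D.ι (ρ b) := fun b => rfl
  have hπl : ∀ a b, π (D.ι a * b) = D.ι a * π b := by
    intro a b
    rw [hπ, hπ, R.left, map_mul, mul_sub]
  have hπr : ∀ b a, π (b * D.ι a) = π b * D.ι a := by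
    intro b a
    rw [hπ, hπ, R.right, map_mul, sub_mul]
  let τ : D1 → D1 → B →ₗ[k] B⟦X⟧ := fun x y =>
    LinearMap.mulRight k (σ (γ (y : Γ)⁻¹)) ∘ₗ LinearMap.mulLeft k (σ (γ x)) ∘ₗ Cl ∘ₗ θ ∘ₗ
      LinearMap.mulRight k (D.ι (γ y)) ∘ₗ LinearMap.mulLeft k (D.ι (γ (x : Γ)⁻¹)) ∘ₗ π
  have hτ : ∀ x y b, τ x y b =
      σ (γ x) * C (θ (D.ι (γ (x : Γ)⁻¹) * π b * D.ι (γ y))) * σ (γ (y : Γ)⁻¹) :=
    fun x y b => rfl
  let φ : B →ₗ[k] B⟦X⟧ := σ.toLinearMap ∘ₗ ρ + ∑ x, ∑ y, τ x y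
  have hφ : ∀ b, φ b = σ (ρ b) + ∑ x, ∑ y, τ x y b := by
    intro b
    simp [φ, LinearMap.sum_apply, LinearMap.add_apply]
  have hspan : ∀ (P : A → Prop), (∀ g, P (γ g)) → (∀ a b, P a → P b → P (a + b)) →
      (∀ (r : k) a, P a → P (r • a)) → P 0 → ∀ a, P a := by
    intro P h1 h2 h3 h0 a
    have ha : a ∈ Submodule.span k (Set.range γ) := by rw [hspan]; trivial
    induction ha using Submodule.span_induction with
    | mem x hx => obtain ⟨g, rfl⟩ := hx; exact h1 g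
    | zero => exact h0
    | add x y _ _ hx hy => exact h2 x y hx hy
    | smul r x _ hx => exact h3 r x hx
  -- left linearity over group elements
  have hl1 : ∀ g ∈ D1, ∀ b, φ (D.ι (γ g) * b) = σ (γ g) * φ b := by
    intro g hg b
    rw [hφ, hφ, R.left, map_mul, mul_add]
    congr 1
    rw [Finset.mul_sum]
    refine Finset.sum_bij' (fun x _ => (⟨g, hg⟩ : D1)⁻¹ * x) (fun x _ => ⟨g, hg⟩ * x) (by simp)
      (by simp) (by simp) (by simp) ?_
    intro x _
    rw [Finset.mul_sum]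
    refine Finset.sum_congr rfl fun y _ => ?_
    rw [hτ, hτ, hπl]
    have e1 : D.ι (γ (x : Γ)⁻¹) * (D.ι (γ g) * π b) =
        D.ι (γ (((⟨g, hg⟩ : D1)⁻¹ * x : D1) : Γ)⁻¹) * π b := by
      rw [← mul_assoc, ← map_mul, ← map_mul]
      congr 3
      push_cast
      group
    have e2 : σ (γ x) = σ (γ g) * σ (γ (((⟨g, hg⟩ : D1)⁻¹ * x : D1) : Γ)) := by
      rw [← map_mul, ← map_mul]
      congr 2
      push_cast
      group
    rw [e1, e2]
    simp only [mul_assoc]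
  have hl2 : ∀ g ∈ C1, ∀ b, φ (D.ι (γ g) * b) = σ (γ g) * φ b := by
    intro g hg b
    rw [hφ, hφ, R.left, map_mul, mul_add]
    congr 1
    rw [Finset.mul_sum]
    refine Finset.sum_bij' (fun x _ => (⟨g⁻¹ * x * g, by
        have := hn.conj_mem x x.2 g⁻¹
        rwa [inv_inv] at this⟩ : D1))
      (fun x _ => ⟨g * x * g⁻¹, hn.conj_mem x x.2 g⟩) (by simp)
      (by simp) (fun x _ => Subtype.ext (by simp [mul_assoc]))
      (fun x _ => Subtype.ext (by simp [mul_assoc])) ?_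
    intro x _
    rw [Finset.mul_sum]
    refine Finset.sum_congr rfl fun y _ => ?_
    rw [hτ, hτ, hπl]
    have e1 : D.ι (γ (x : Γ)⁻¹) * (D.ι (γ g) * π b) * D.ι (γ y) =
        D.ι (γ g) * (D.ι (γ (g⁻¹ * x * g)⁻¹) * π b * D.ι (γ y)) := by
      simp only [← mul_assoc, ← map_mul]
      congr 3
      congr 1
      group
    rw [e1, hθl g hg, map_mul, ← hσC g hg]
    have e2 : σ (γ x) * σ (γ g) = σ (γ g) * σ (γ (g⁻¹ * x * g)) := by
      rw [← map_mul, ← map_mul, ← map_mul, ← map_mul]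
      congr 2
      group
    rw [← mul_assoc (σ (γ x)), e2]
    simp only [mul_assoc]
  have hr1 : ∀ g ∈ D1, ∀ b, φ (b * D.ι (γ g)) = φ b * σ (γ g) := by
    intro g hg b
    rw [hφ, hφ, R.right, map_mul, add_mul]
    congr 1
    rw [Finset.sum_mul]
    refine Finset.sum_congr rfl fun x _ => ?_
    rw [Finset.sum_mul]
    refine Finset.sum_bij' (fun y _ => ⟨g, hg⟩ * y) (fun y _ => (⟨g, hg⟩ : D1)⁻¹ * y) (by simp)
      (by simp) (by simp) (by simp) ?_
    intro y _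
    rw [hτ, hτ, hπr]
    have e1 : D.ι (γ (x : Γ)⁻¹) * (π b * D.ι (γ g)) * D.ι (γ y) =
        D.ι (γ (x : Γ)⁻¹) * π b * D.ι (γ ((⟨g, hg⟩ * y : D1) : Γ)) := by
      push_cast
      rw [map_mul γ g y, map_mul D.ι]
      simp only [mul_assoc]
    have e2 : σ (γ (y : Γ)⁻¹) = σ (γ ((⟨g, hg⟩ * y : D1) : Γ)⁻¹) * σ (γ g) := by
      rw [← map_mul, ← map_mul]
      congr 2
      push_cast
      group
    rw [e1, e2]
    simp only [mul_assoc]
  have hr2 : ∀ g ∈ C1, ∀ b, φ (b * D.ι (γ g)) = φ b * σ (γ g) := by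
    intro g hg b
    rw [hφ, hφ, R.right, map_mul, add_mul]
    congr 1
    rw [Finset.sum_mul]
    refine Finset.sum_congr rfl fun x _ => ?_
    rw [Finset.sum_mul]
    refine Finset.sum_bij' (fun y _ => (⟨g * y * g⁻¹, hn.conj_mem y y.2 g⟩ : D1))
      (fun y _ => ⟨g⁻¹ * y * g, by
        have := hn.conj_mem y y.2 g⁻¹
        rwa [inv_inv] at this⟩) (by simp)
      (by simp) (fun x _ => Subtype.ext (by simp [mul_assoc]))
      (fun x _ => Subtype.ext (by simp [mul_assoc])) ?_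
    intro y _
    rw [hτ, hτ, hπr]
    have e1 : D.ι (γ (x : Γ)⁻¹) * (π b * D.ι (γ g)) * D.ι (γ y) =
        (D.ι (γ (x : Γ)⁻¹) * π b * D.ι (γ (g * y * g⁻¹))) * D.ι (γ g) := by
      simp only [mul_assoc, ← map_mul]
      congr 3
      congr 1
      congr 1
      group
    rw [e1, hθr g hg, map_mul, ← hσC g hg]
    have e2 : σ (γ g) * σ (γ (y : Γ)⁻¹) = σ (γ (g * y * g⁻¹)⁻¹) * σ (γ g) := by
      rw [← map_mul, ← map_mul, ← map_mul, ← map_mul]
      congr 2
      group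
    rw [← mul_assoc (σ (γ (x : Γ))), mul_assoc _ (σ (γ g)), e2]
    simp only [mul_assoc]
  have hφl : ∀ a b, φ (D.ι a * b) = σ a * φ b := by
    intro a
    refine hspan (fun a => ∀ b, φ (D.ι a * b) = σ a * φ b) ?_ ?_ ?_ ?_ a
    · intro g b
      obtain ⟨x, hx, c, hc, rfl⟩ := hgen g
      rw [map_mul γ x c, map_mul D.ι, map_mul σ, mul_assoc, hl1 x hx, hl2 c hc, mul_assoc]
    · intro a a' h h' b
      rw [map_add, add_mul, map_add, h, h', map_add, add_mul]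
    · intro r a h b
      rw [map_smul, smul_mul_assoc, map_smul, h, map_smul, smul_mul_assoc]
    · intro b
      rw [map_zero, zero_mul, map_zero, map_zero, zero_mul]
  have hφr : ∀ b a, φ (b * D.ι a) = φ b * σ a := by
    intro b a
    refine hspan (fun a => ∀ b, φ (b * D.ι a) = φ b * σ a) ?_ ?_ ?_ ?_ a b
    · intro g b
      obtain ⟨x, hx, c, hc, rfl⟩ := hgen g
      rw [map_mul γ x c, map_mul D.ι, map_mul σ, ← mul_assoc, hr2 c hc, hr1 x hx, mul_assoc]
    · intro a a' h h' b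
      rw [map_add, mul_add, map_add, h, h', map_add, mul_add]
    · intro r a h b
      rw [map_smul, mul_smul_comm, map_smul, h, map_smul, mul_smul_comm]
    · intro b
      rw [map_zero, mul_zero, map_zero, map_zero, mul_zero]
  have hφ1 : φ 1 = 1 := by
    have h1 : ρ 1 = 1 := by
      have := R.ret 1
      rwa [map_one] at this
    have h2 : π 1 = 0 := by rw [hπ, h1, map_one, sub_self]
    rw [hφ, h1, map_one]
    have h3 : ∀ x y, τ x y 1 = 0 := by
      intro x y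
      rw [hτ, h2, mul_zero, zero_mul, map_zero, map_zero, mul_zero, zero_mul]
    simp [h3]
  have hφ0 : ∀ b, coeff 0 (φ b) = b := by
    intro b
    rw [hφ, map_add, hσ, map_sum]
    have h1 : ∀ x, coeff 0 (∑ y, τ x y b) = ∑ y, D.ι (γ.comp D1.subtype x) *
        θ (D.ι (γ.comp D1.subtype x⁻¹) * π b * D.ι (γ.comp D1.subtype y)) *
          D.ι (γ.comp D1.subtype y⁻¹) := by
      intro x
      rw [map_sum]
      refine Finset.sum_congr rfl fun y _ => ?_
      rw [hτ]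
      have hσ' : ∀ a, constantCoeff (σ a) = D.ι a := fun a => by
        rw [← coeff_zero_eq_constantCoeff_apply, hσ]
      rw [coeff_zero_eq_constantCoeff_apply, map_mul, map_mul, hσ', hσ', constantCoeff_C]
      rfl
    simp only [h1]
    rw [R.hig, hπ]
    have h2 : ρ (b - D.ι (ρ b)) = 0 := by rw [map_sub, R.ret, sub_self]
    rw [h2, map_zero]
    abel
  refine ⟨φ, hφl, hφr, hφ1, hφ0, ?_⟩
  intro b b' m hm
  have : m = 0 := by omega
  subst this
  rw [map_sub, hφ0, coeff_mul]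
  simp [hφ0]

/-- **The Hasse–Schmidt derivation relative to `D₂`.** -/
theorem hsd_rel (hspan : Submodule.span k (Set.range γ) = ⊤)
    (R : Rel (γ.comp D1.subtype) D.ι ρ θ)
    (hθl : ∀ g ∈ C1, ∀ b, θ (D.ι (γ g) * b) = D.ι (γ g) * θ b)
    (hθr : ∀ g ∈ C1, ∀ b, θ (b * D.ι (γ g)) = θ b * D.ι (γ g))
    (hn : D1.Normal) (hgen : ∀ g : Γ, ∃ x ∈ D1, ∃ c ∈ C1, g = x * c)
    {W : ℚ → Submodule k A} (hW : GrAlg W) {M : ℕ} (hM : 0 < M)
    (supp : ∀ r : ℚ, (∀ w : ℕ, w < M → r ≠ w) → W r = ⊥) (hdeg : ∀ g ∈ C1, γ g ∈ W 0) :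
    Nonempty (HSD k D.ι W) := by
  classical
  obtain ⟨σ, hσ⟩ := exists_sigma D.ι hW M hM supp
  have hσ0 : ∀ a, coeff 0 (σ a) = D.ι a := by
    intro a
    obtain ⟨S, -, hS⟩ := sum_cpt_finsupp hW.int a
    rw [← hS, map_sum, map_sum, map_sum]
    refine Finset.sum_congr rfl fun r _ => ?_
    by_cases hr : ∃ w : ℕ, w < M ∧ r = w
    · obtain ⟨w, -, rfl⟩ := hr
      rw [hσ w 0 _ (cpt_mem hW.int _ _)]
      simp
    · have h3 := supp r (fun w hw h => hr ⟨w, hw, h⟩)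
      have h4 := cpt_mem hW.int r a
      rw [h3] at h4
      have h5 : cpt W r a = 0 := by simpa using h4
      rw [h5]
      simp
  have hσC : ∀ g ∈ C1, σ (γ g) = C (D.ι (γ g)) := by
    intro g hg
    ext n
    rw [hσ 0 n (γ g) (by simpa using hdeg g hg), coeff_C]
    rcases n with _ | n
    · simp
    · rw [Nat.choose_eq_zero_of_lt (by omega), if_neg (by omega)]
      simp
  obtain ⟨φ0, hφ0⟩ := start_rel D hspan R hθl hθr hn hgen σ hσ0 hσC
  exact hsd_of_start hσ hφ0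

end

end Vale.P179.H554.RS
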