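import Vale.Agent.P179.Rel.Defs
import Vale.Agent.P179.H554.RS2

/-!
# REL, module S1R: the Hasse–Schmidt derivation in the frozen letters
-/

namespace Vale.P179.H554

open Module Vale.P179.H175 Vale.P179.Sgn Vale.P179.Rel P179H342

theorem gen_of {p : ℕ} {Γ : Type} [Group Γ] {D1 D2 : Subgroup Γ} {t : Γ} {e : ℕ}
    (h : FreeCycR p Γ D1 D2 t e) (g : Γ) :
    ∃ x ∈ D1, ∃ c ∈ D2 ⊔ Subgroup.zpowers t, g = x * c := by
  obtain ⟨⟨a, b⟩, hab, -⟩ := h.compl.existsUnique g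
  have h1 : (a : Γ) ∈ D1 ⊔ D2 := a.2
  have := h.n1
  obtain ⟨x, hx, y, hy, hxy⟩ := Subgroup.mem_sup_of_normal_left.1 h1
  refine ⟨x, hx, y * b, mul_mem (Subgroup.mem_sup_left hy) (Subgroup.mem_sup_right b.2), ?_⟩
  rw [← hab, ← mul_assoc, hxy]

theorem deg_of {k A Γ : Type} [Field k] [Ring A] [Algebra k A] [Group Γ] [Fintype Γ] {γ : Γ →* A}
    {D2 : Subgroup Γ} {t : Γ} {e M c : ℕ} [NeZero e] (H : RGr k A Γ γ D2 t e M c) :
    ∀ g ∈ D2 ⊔ Subgroup.zpowers t, γ g ∈ H.W 0 := by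
  have hmul : ∀ x y : Γ, γ x ∈ H.W 0 → γ y ∈ H.W 0 → γ (x * y) ∈ H.W 0 := by
    intro x y hx hy
    rw [map_mul]
    simpa using H.basic.gr.mul hx hy
  have hone : γ 1 ∈ H.W 0 := by
    rw [map_one]
    exact H.basic.gr.one
  have hpow : ∀ (x : Γ) (n : ℕ), γ x ∈ H.W 0 → γ (x ^ n) ∈ H.W 0 := by
    intro x n hx
    induction n with
    | zero => rw [pow_zero]; exact hone
    | succ n ih => rw [pow_succ]; exact hmul _ _ ih hx
  have hinv : ∀ x : Γ, γ x ∈ H.W 0 → γ x⁻¹ ∈ H.W 0 := by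
    intro x hx
    have h1 : x⁻¹ = x ^ (orderOf x - 1) := by
      rw [inv_eq_iff_mul_eq_one, ← pow_succ', Nat.sub_add_cancel (orderOf_pos x),
        pow_orderOf_eq_one]
    rw [h1]
    exact hpow _ _ hx
  let S : Subgroup Γ :=
    { carrier := {g | γ g ∈ H.W 0}
      mul_mem' := fun {x y} hx hy => hmul x y hx hy
      one_mem' := hone
      inv_mem' := fun {x} hx => hinv x hx }
  have hle : D2 ⊔ Subgroup.zpowers t ≤ S := by
    refine sup_le (fun x hx => H.deg0 x hx) ?_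
    rw [Subgroup.zpowers_le]
    exact H.degt
  exact fun g hg => hle hg

/-- **MODULE S1R** -/
theorem s1r : S1R := by
  intro p _ k A B Γ _ _ _ _ _ _ _ _ _ D1 D2 t e _ hF D M c H
  classical
  let S : RS.SepD k A B :=
    { ι := D.ι
      m := D.m
      s := D.s
      t := D.r
      st := D.st
      sep := D.sep }
  have hM : 0 < M := by
    obtain ⟨q, -, hq⟩ := H.hM
    omega
  exact RS.hsd_rel S D.span (D1 := D1) (C1 := D2 ⊔ Subgroup.zpowers t) D.rel D.θl D.θr hF.n1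
    (gen_of hF) H.basic.gr hM H.supp (deg_of H)

end Vale.P179.H554
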